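import Vale.Agent.P236A.Wt

/-!
# P236, block DGM: base change of a contraction
-/

noncomputable section

namespace Vale.Agent.P236D

open Vale.Agent.P236A Vale.Agent.P236B MvPolynomial

variable {p : ℕ} [hp : Fact p.Prime] {k : Type} [CommRing k] {B : Type} [CommRing B]
  {ι : Type} [Fintype ι] [DecidableEq ι] {M : Type} [AddCommGroup M] [Module B M]

/-- the linear map with given values on the basis vectors -/
def extB (f : ι → (ℕ →₀ ℕ) → M) : (ι → MvPolynomial ℕ B) →ₗ[B] M :=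
  ∑ g, (basisMonomials ℕ B).constr B (f g) ∘ₗ LinearMap.proj g

theorem sum_bv (y : ι → MvPolynomial ℕ B) :
    y = ∑ g, ∑ J ∈ (y g).support, coeff J (y g) • (bv g J : ι → MvPolynomial ℕ B) := by
  conv_lhs => rw [← Finset.univ_sum_single y]
  refine Finset.sum_congr rfl fun g _ => ?_
  conv_lhs => rw [(y g).as_sum]
  rw [← LinearMap.single_apply B, map_sum]
  refine Finset.sum_congr rfl fun J _ => ?_
  rw [bv, ← Pi.single_smul, smul_monomial, smul_eq_mul, mul_one, LinearMap.single_apply]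

theorem extB_bv (f : ι → (ℕ →₀ ℕ) → M) (g : ι) (J : ℕ →₀ ℕ) :
    extB f (bv g J : ι → MvPolynomial ℕ B) = f g J := by
  rw [extB, LinearMap.sum_apply, Finset.sum_eq_single g]
  · rw [LinearMap.comp_apply, LinearMap.proj_apply, bv, Pi.single_eq_same]
    exact (basisMonomials ℕ B).constr_basis B (f g) J
  · intro g' _ h
    rw [LinearMap.comp_apply, LinearMap.proj_apply, bv, Pi.single_eq_of_ne h, map_zero]
  · intro h
    exact absurd (Finset.mem_univ g) h

theorem lin_bv (f : (ι → MvPolynomial ℕ B) →ₗ[B] M) (y : ι → MvPolynomial ℕ B) :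
    f y = ∑ g, ∑ J ∈ (y g).support, coeff J (y g) • f (bv g J) := by
  conv_lhs => rw [sum_bv y]
  simp only [map_sum, map_smul]

/-- base change of vectors -/
def mapY (x : Av k →+* B) : (ι → Gm k) →ₛₗ[x] (ι → MvPolynomial ℕ B) where
  toFun y g := map x (y g)
  map_add' y y' := funext fun g => by simp
  map_smul' a y := funext fun g => by
    simp only [Pi.smul_apply, ← C_mul', map_mul, map_C]

omit [Fintype ι] in
theorem mapY_bv (x : Av k →+* B) (g : ι) (J : ℕ →₀ ℕ) : mapY x (bv g J) = bv g J := by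
  funext g'
  change map x (bv g J g') = _
  by_cases h : g' = g
  · subst h
    rw [bv, bv, Pi.single_eq_same, Pi.single_eq_same, map_monomial, x.map_one]
  · rw [bv, bv, Pi.single_eq_of_ne h, Pi.single_eq_of_ne h, map_zero]

theorem extB_mapY (x : Av k →+* B) (H : (ι → Gm k) →ₗ[Av k] (ι → Gm k)) (y : ι → Gm k) :
    extB (fun g J => mapY x (H (bv g J))) (mapY x y) = mapY x (H y) := by
  rw [lin_bv H y]
  conv_lhs => rw [sum_bv y]
  simp only [map_sum, LinearMap.map_smulₛₗ, mapY_bv, extB_bv, RingHom.id_apply]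

variable {Γ : Gens ι} {δ : Mat ι (Av k)} {S : ℕ} {N : ℤ} {𝒢 : Grd B} {x : Av k →+* B}

omit [Fintype ι] [DecidableEq ι] in
theorem smul_mem_poly {s : ℕ} {v w : ℤ} {b : B} {y : ι → MvPolynomial ℕ B} (hb : b ∈ 𝒢.G v)
    (hy : y ∈ HomG Γ (𝒢.poly (wz p)) s w) : b • y ∈ HomG Γ (𝒢.poly (wz p)) s (v + w) := by
  have h := HomG.smul Γ (Grd.C_mem (wz p) hb) hy
  convert h using 1
  funext g
  simp only [Pi.smul_apply, smul_eq_mul, C_mul']

/-- **The base change of a contractible resolution is exact.** -/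
theorem contr_bc (K : Contr p Γ δ S N) (h𝒢 : 𝒢.NonNeg) (hx : (gA p k).Map 𝒢 x) {s : ℕ} {w : ℤ}
    (hs : s ≤ S) (hw : w ≤ N) {y : ι → MvPolynomial ℕ B} (hy : y ∈ HomG Γ (𝒢.poly (wz p)) s w)
    (h0 : XB p x δ y = 0) : ∃ (y' : ι → MvPolynomial ℕ B) (b : B),
      y' ∈ HomG Γ (𝒢.poly (wz p)) (s - 1) w ∧ b ∈ 𝒢.G w ∧ (s = 0 → y' = 0) ∧ (s ≠ 0 → b = 0) ∧
      y = XB p x δ y' + Pi.single Γ.g0 (C b) := by
  set H : (ι → MvPolynomial ℕ B) →ₗ[B] (ι → MvPolynomial ℕ B) :=
    extB fun g J => mapY x (K.H (bv g J)) with hH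
  set c : (ι → MvPolynomial ℕ B) →ₗ[B] B := extB fun g J => x (K.c (bv g J)) with hc
  have hdeg : ∀ g J, J ∈ (y g).support → Γ.deg g = s := fun g J hJ => by
    by_contra h
    rw [(hy g).2 h] at hJ
    simp at hJ
  have hwt : ∀ g J, J ∈ (y g).support → mz p J + Γ.wt g ≤ N := fun g J hJ => by
    have := h𝒢.le (hy g).1 (mem_support_iff.1 hJ)
    rw [mz]
    omega
  refine ⟨H y, c y, ?_, ?_, ?_, ?_, ?_⟩
  · rw [lin_bv H]
    refine sum_mem fun g _ => sum_mem fun J hJ => ?_
    have h1 : H (bv g J) ∈ HomG Γ (𝒢.poly (wz p)) (s - 1) (mz p J + Γ.wt g) := by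
      rw [hH, extB_bv]
      refine HomG.map Γ (hx.map (wz p)) fun g' => ⟨fun J' => ?_, fun h => K.H_deg g J g' ?_⟩
      · refine Grd.cast _ ((mem_gA p).2 (K.H_wt g J g' J')) ?_
        rw [mz, mz]
        ring
      · have := hdeg g J hJ
        omega
    have h2 := smul_mem_poly ((hy g).1 J) h1
    rwa [show w - (Γ.wt g : ℤ) - Finsupp.weight (wz p) J + (mz p J + Γ.wt g) = w by
      rw [mz]; ring] at h2
  · rw [lin_bv c]
    refine sum_mem fun g _ => sum_mem fun J _ => ?_
    rw [hc, extB_bv, smul_eq_mul]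
    refine 𝒢.cast (𝒢.mul_mem ((hy g).1 J) (hx _ _ ((mem_gA p).2 (K.c_wt g J)))) ?_
    rw [mz]
    ring
  · intro h
    rw [lin_bv H]
    refine Finset.sum_eq_zero fun g _ => Finset.sum_eq_zero fun J hJ => ?_
    have h1 : K.H (bv g J) = 0 := funext fun g' => K.H_deg g J g' (by
      have := hdeg g J hJ
      omega)
    rw [hH, extB_bv, h1, map_zero, smul_zero]
  · intro h
    rw [lin_bv c]
    refine Finset.sum_eq_zero fun g _ => Finset.sum_eq_zero fun J hJ => ?_
    rw [hc, extB_bv, K.c_deg g J (by rwa [hdeg g J hJ]), map_zero, smul_zero]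
  · set F : (ι → MvPolynomial ℕ B) →ₗ[B] (ι → MvPolynomial ℕ B) := XB p x δ ∘ₗ H + H ∘ₗ XB p x δ +
      LinearMap.single B (fun _ => MvPolynomial ℕ B) Γ.g0 ∘ₗ monomial 0 ∘ₗ c with hF
    have h1 : F y = y := by
      rw [lin_bv F]
      conv_rhs => rw [sum_bv y]
      refine Finset.sum_congr rfl fun g _ => Finset.sum_congr rfl fun J hJ => ?_
      congr 1
      have h2 := congrArg (mapY x) (K.eq g J (by rwa [hdeg g J hJ]) (hwt g J hJ))
      have h3 : ∀ y, mapY x (XG p δ y) = XB p x δ (mapY x y) := map_XG p x δ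
      rw [map_add, map_add, h3, ← extB_mapY x K.H (XG p δ _), h3, mapY_bv] at h2
      rw [hF, LinearMap.add_apply, LinearMap.add_apply, LinearMap.comp_apply, LinearMap.comp_apply,
        LinearMap.comp_apply, LinearMap.comp_apply, hH, extB_bv, hc, extB_bv,
        LinearMap.single_apply]
      refine Eq.trans ?_ h2
      congr 1
      funext g'
      change _ = map x (Pi.single (M := fun _ => Gm k) Γ.g0 _ g')
      by_cases h : g' = Γ.g0
      · subst h
        rw [Pi.single_eq_same, Pi.single_eq_same, map_C]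
        rfl
      · rw [Pi.single_eq_of_ne h, Pi.single_eq_of_ne h, map_zero]
    conv_lhs => rw [← h1, hF]
    rw [LinearMap.add_apply, LinearMap.add_apply, LinearMap.comp_apply, LinearMap.comp_apply, h0,
      map_zero, add_zero]
    rfl

end Vale.Agent.P236D
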