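import Vale.Agent.P236D.W
import Vale.Agent.P236D.BC
import Vale.Agent.P257.H314.Desc

/-!
# P236, block DGM: Cartier typicalization

* `mk0` : the chain whose typical vertex is the typicalization of the first free vertex;
* `Cls` : classes of chains, `Cls.J` the ideal of functions vanishing on the class;
* `Cls.Θ : W k (a + 1) → (Cob Laz a ⧸ N)[t]` is onto with kernel `J`, compatibly with the weights.
-/

noncomputable section

namespace Vale.Agent.P236D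

open Vale.Agent.P251.F Vale.Agent.P236A Vale.Agent.P236B Vale.Agent.P257.H80 MvPolynomial

variable (p : ℕ) [hp : Fact p.Prime] {k : Type} [CommRing k] {B B' : Type} [CommRing B]
  [CommRing B'] {n : ℕ}

/-- the parameters of the typicalization -/
def vF (hB : PLoc p B) (F : Law B) : ℕ → B := fun i => typ p hB F (p ^ (i + 1) - 2)

/-- the typicalizing isomorphism -/
def cF (hB : PLoc p B) (F : Law B) : InvSeries B := strictMk (bS p (typ p hB F))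

theorem cF_mem (hB : PLoc p B) (F : Law B) : cF p hB F ∈ strict B := strictMk_mem _

theorem cF_smul (hB : PLoc p B) (F : Law B) : cF p hB F • F = hz p (vF p hB F) :=
  isTyp_typ p hB F

theorem map_vF (hB : PLoc p B) (φ : B →+* B') (F : Law B) (i : ℕ) :
    φ (vF p hB F i) = vF p (hB.map φ) (F.map φ) i := (typ_map p hB _ φ F _).symm

theorem map_cF (hB : PLoc p B) (φ : B →+* B') (F : Law B) :
    InvSeries.map φ (cF p hB F) = cF p (hB.map φ) (F.map φ) := by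
  rw [cF, cF, map_strictMk]
  congr 1
  funext n
  rw [map_bS]
  congr 1
  funext n
  exact (typ_map p hB _ φ F _).symm

theorem vF_lin (hB : PLoc p B) (u : Bˣ) (F : Law B) (i : ℕ) :
    vF p hB ((InvSeries.lin u)⁻¹ • F) i = ((u ^ wz p i : Bˣ) : B) * vF p hB F i := by
  rw [vF, typ_lin, unit_wz, vF]
  congr 2
  have h4 := two_le_pow (k := i + 1) hp.out (Nat.succ_ne_zero i)
  omega

theorem cF_lin (hB : PLoc p B) (u : Bˣ) (F : Law B) : cF p hB ((InvSeries.lin u)⁻¹ • F) =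
    (InvSeries.lin u)⁻¹ * cF p hB F * InvSeries.lin u := by
  apply InvSeries.ext_c
  intro k
  rw [c_conj_lin, cF, cF]
  rcases k with _ | k
  · rw [c_zero_strictMk, c_zero_strictMk, pow_zero, mul_one]
  · rw [c_succ_strictMk, c_succ_strictMk]
    unfold bS
    split_ifs
    · rw [mul_zero]
    · exact typ_lin p hB u F k

theorem cF_hz (hB : PLoc p B) (v : ℕ → B) : cF p hB (hz p v) = 1 := by
  rw [cF, hz, typ_haz, bS_seqV, strictMk_zero]

theorem vF_hz (hB : PLoc p B) (v : ℕ → B) : vF p hB (hz p v) = v := by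
  have h := cF_smul p hB (hz p v)
  rw [cF_hz, one_smul] at h
  exact (hz_injective p h).symm

/-- the chain whose typical vertex is the typicalization of the first free vertex -/
def mk0 (hB : PLoc p B) (θ : k →+* B) (e : Chain Laz n B) : Chain (Av k) (n + 1) B :=
  mkF (eval₂Hom θ (vF p hB (Laz.univ.map e.pt))) (fun i => e.g i * (cF p hB (Laz.univ.map e.pt))⁻¹)
    fun i => mul_mem (e.strict i) (inv_mem (cF_mem p hB _))

variable {p}

theorem mk0_pt (hB : PLoc p B) (θ : k →+* B) (e : Chain Laz n B) :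
    (mk0 p hB θ e).pt = eval₂Hom θ (vF p hB (Laz.univ.map e.pt)) := rfl

theorem mk0_g (hB : PLoc p B) (θ : k →+* B) (e : Chain Laz n B) (i : Fin (n + 1)) :
    (mk0 p hB θ e).g i.succ = e.g i * (cF p hB (Laz.univ.map e.pt))⁻¹ := rfl

theorem vc_mk0 (hB : PLoc p B) (θ : k →+* B) (e : Chain Laz n B) :
    vc (mk0 p hB θ e) = vF p hB (Laz.univ.map e.pt) := funext fun i => by simp [vc, mk0_pt]

theorem res_mk0 (hB : PLoc p B) (θ : k →+* B) (e : Chain Laz n B) :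
    (toLaz p (mk0 p hB θ e)).res Fin.succ = e := by
  refine chain_ext ?_ fun i => ?_
  · change LawRing.act ((mk0 p hB θ e).g (Fin.succ 0)) (Laz.lift (hz p (vc _))) = _
    rw [Laz.act_eq, Laz.univ_map_lift, vc_mk0, mk0_g, e.zero, one_mul, ← cF_smul, inv_smul_smul,
      Laz.lift_map_univ]
  · change (mk0 p hB θ e).g i.succ.succ * ((mk0 p hB θ e).g (Fin.succ 0))⁻¹ = _
    rw [mk0_g, mk0_g, e.zero]
    group

theorem map_mk0 (hB : PLoc p B) (θ : k →+* B) (φ : B →+* B') (e : Chain Laz n B) :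
    (mk0 p hB θ e).map φ = mk0 p (hB.map φ) (φ.comp θ) (e.map φ) := by
  refine chain_ext (av_ext (fun a => ?_) fun i => ?_) fun i => ?_
  · simp [mk0_pt]
  · simp [mk0_pt, map_vF, Law.map_map]
  · rw [Chain.map_g, mk0_g, mk0_g, map_mul, map_inv, map_cF, Law.map_map]
    rfl

theorem scW_mk0 (hB : PLoc p B) (θ : k →+* B) (e : Chain Laz n B) (u : Bˣ) :
    scW p (mk0 p hB θ e) u = mk0 p hB θ (e.scale u) := by
  have h : Laz.univ.map (e.scale u).pt = (InvSeries.lin u)⁻¹ • Laz.univ.map e.pt :=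
    Laz.univ_map_lift _
  refine chain_ext (av_ext (fun a => ?_) fun i => ?_) fun i => ?_
  · simp [mk0_pt, scW_pt]
  · rw [scW_pt, setV_X, vc_mk0, mk0_pt, eval₂Hom_X', h, vF_lin]
  · rw [scW_g, mk0_g, mk0_g, h, cF_lin]
    change _ = (InvSeries.lin u)⁻¹ * e.g i * InvSeries.lin u * _
    group

theorem exists_mv (hB : PLoc p B) (c : Chain (Av k) (n + 1) B) :
    ∃ t, c = mv p (mk0 p hB (c.pt.comp C) ((toLaz p c).res Fin.succ)) t := by
  have h : Laz.univ.map ((toLaz p c).res Fin.succ).pt = c.g (Fin.succ 0) • hz p (vc c) := by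
    change Laz.univ.map (LawRing.act _ (Laz.lift _)) = _
    rw [Laz.act_eq, Laz.univ_map_lift, Laz.univ_map_lift]
    rfl
  have h0 := cF_smul p hB (c.g (Fin.succ 0) • hz p (vc c))
  rw [← mul_smul] at h0
  obtain ⟨t, ht⟩ := exists_fT p hB (mul_mem (cF_mem p hB _) (c.strict (Fin.succ 0))) h0
  refine ⟨t, chain_ext (av_ext (fun a => ?_) fun i => ?_) fun i => ?_⟩
  · simp [mv_pt, mk0_pt]
  · rw [mv_pt, tgt_X]
    refine congrFun (eq_eta p (w := vc c) ?_) i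
    change (fT p (vc _) t)⁻¹ • hz p (vc _) = _
    rw [vc_mk0, h, ← ht, ← h0, inv_smul_smul]
  · rw [mv_g, mk0_g, vc_mk0, h, ← ht]
    change _ = c.g i.succ * (c.g (Fin.succ 0))⁻¹ * _ * _
    group

variable (hk : PLoc p k)

omit hp in
/-- the ring `W k n` is `p`-local -/
theorem pLoc_of_pt {B : Type} [CommRing B] (hk : PLoc p k) (x : Av k →+* B) : PLoc p B :=
  hk.map (x.comp C)

/-- the coordinates of the isomorphism between the two typical laws -/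
def tb (n : ℕ) : ℕ → W k (n + 1) :=
  (exists_mv (pLoc_of_pt hk C) (Cob.univ (Av k) (n + 1))).choose

theorem eq_mv_tb (c : Chain (Av k) (n + 1) B) :
    c = mv p (mk0 p (pLoc_of_pt hk c.pt) (c.pt.comp C) ((toLaz p c).res Fin.succ))
      fun i => Cob.ev c (tb hk n i) := by
  have h := congrArg (Chain.map (Cob.ev c))
    (exists_mv (pLoc_of_pt hk C) (Cob.univ (Av k) (n + 1))).choose_spec
  rw [map_mv, map_mk0, Chain.map_res, map_toLaz, Cob.univ_map_ev] at h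
  refine h.trans ?_
  congr 2
  exact RingHom.ext fun a => Cob.ev_C _ _

theorem ev_tb (hB : PLoc p B) (θ : k →+* B) (e : Chain Laz n B) (t : ℕ → B) (i : ℕ) :
    Cob.ev (mv p (mk0 p hB θ e) t) (tb hk n i) = t i := by
  have h := eq_mv_tb hk (mv p (mk0 p hB θ e) t)
  rw [res_toLaz_mv, res_mk0] at h
  have h1 : (mv p (mk0 p hB θ e) t).pt.comp C = θ := RingHom.ext fun a => by simp [mv_pt, mk0_pt]
  rw [h1] at h
  exact (congrFun (mv_injective p _ h) i).symm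

theorem tb_mem (i : ℕ) : tb hk n i ∈ (gW p k (n + 1)).G (wz p i) := by
  intro B _ c u
  conv_lhs => rw [eq_mv_tb hk c, scW_mv, scW_mk0, ev_tb]

variable (p k) in
/-- classes of chains -/
structure Cls where
  /-- the chains of the class -/
  mem : ∀ {n : ℕ} {B : Type} [CommRing B], Chain (Av k) n B → Prop
  map : ∀ {n : ℕ} {B B' : Type} [CommRing B] [CommRing B'] (φ : B →+* B') (c : Chain (Av k) n B),
    mem c → mem (c.map φ)
  resF : ∀ {m n : ℕ} {B : Type} [CommRing B] (β : Fin m → Fin (n + 1)) (c : Chain (Av k) n B),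
    mem c → mem (resF β c)
  mv : ∀ {n : ℕ} {B : Type} [CommRing B] (c : Chain (Av k) n B) (t : ℕ → B), mem c → mem (mv p c t)
  scW : ∀ {n : ℕ} {B : Type} [CommRing B] (c : Chain (Av k) n B) (u : Bˣ),
    mem c → mem (scW p c u)
  mk0 : ∀ {n : ℕ} {B : Type} [CommRing B] (hB : PLoc p B) (θ : k →+* B) (e : Chain Laz n B),
    (∀ z, (∀ (B' : Type) [CommRing B'] (c : Chain (Av k) (n + 1) B'), mem c →
      Cob.ev ((toLaz p c).res Fin.succ) z = 0) → Cob.ev e z = 0) → mem (mk0 p hB θ e)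

namespace Cls

variable (𝒞 : Cls p k)

/-- functions vanishing on the class -/
def J (n : ℕ) : Ideal (W k n) where
  carrier := {x | ∀ (B : Type) [CommRing B] (c : Chain (Av k) n B), 𝒞.mem c → Cob.ev c x = 0}
  add_mem' ha hb B _ c hc := by rw [map_add, ha B c hc, hb B c hc, add_zero]
  zero_mem' B _ c _ := map_zero _
  smul_mem' a x hx B _ c hc := by rw [smul_eq_mul, map_mul, hx B c hc, mul_zero]

/-- cochains vanishing on the class -/
def N (n : ℕ) : Ideal (Cob Laz n) := (𝒞.J (n + 1)).comap (iW p k n)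

theorem mem_N {z : Cob Laz n} : z ∈ 𝒞.N n ↔ iW p k n z ∈ 𝒞.J (n + 1) := Iff.rfl

theorem mem_N' {z : Cob Laz n} : z ∈ 𝒞.N n ↔ ∀ (B : Type) [CommRing B]
    (c : Chain (Av k) (n + 1) B), 𝒞.mem c → Cob.ev ((toLaz p c).res Fin.succ) z = 0 := by
  simp only [← ev_iW]
  rfl

theorem mapF_J {m : ℕ} (β : Fin m → Fin (n + 1)) {x : W k m} (hx : x ∈ 𝒞.J m) :
    mapF β x ∈ 𝒞.J n := fun B _ c hc => by
  rw [ev_mapF]
  exact hx B _ (𝒞.resF β c hc)

theorem dW_J {x : W k n} (hx : x ∈ 𝒞.J n) : dW n x ∈ 𝒞.J (n + 1) := by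
  rw [dW_apply]
  exact sum_mem fun i _ => zsmul_mem (𝒞.mapF_J _ hx) _

theorem Th_J {c : Chain (Av k) n B} (hc : 𝒞.mem c) {x : W k n} (hx : x ∈ 𝒞.J n) : Th p c x = 0 :=
  hx _ _ (𝒞.mv _ _ (𝒞.map _ _ hc))

theorem actW_J (ξ : (ℕ →₀ ℕ) → Av k) {x : W k n} (hx : x ∈ 𝒞.J n) : actW p ξ n x ∈ 𝒞.J n :=
  fun B _ c hc => by rw [ev_actW, 𝒞.Th_J hc hx, map_zero]

/-- the quotient ring -/
def Q (n : ℕ) : Type := Cob Laz n ⧸ 𝒞.N n

instance (n : ℕ) : CommRing (𝒞.Q n) := Ideal.Quotient.commRing (𝒞.N n)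

/-- the projection -/
def mkQ (n : ℕ) : Cob Laz n →+* 𝒞.Q n := Ideal.Quotient.mk (𝒞.N n)

theorem mkQ_surjective : Function.Surjective (𝒞.mkQ n) := Ideal.Quotient.mk_surjective

theorem mkQ_eq_zero {z : Cob Laz n} : 𝒞.mkQ n z = 0 ↔ z ∈ 𝒞.N n := Ideal.Quotient.eq_zero_iff_mem

/-- maps out of the quotient ring -/
def liftQ (φ : Cob Laz n →+* B) (h : ∀ z ∈ 𝒞.N n, φ z = 0) : 𝒞.Q n →+* B :=
  Ideal.Quotient.lift (𝒞.N n) φ h

theorem liftQ_comp (φ : Cob Laz n →+* B) (h : ∀ z ∈ 𝒞.N n, φ z = 0) :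
    (𝒞.liftQ φ h).comp (𝒞.mkQ n) = φ := Ideal.Quotient.lift_comp_mk _ _ _

/-- the universal chain over the quotient ring -/
def eQ (n : ℕ) : Chain Laz n (𝒞.Q n) := (Cob.univ Laz n).map (𝒞.mkQ n)

theorem ev_eQ (z : Cob Laz n) : Cob.ev (𝒞.eQ n) z = 𝒞.mkQ n z := by
  rw [eQ, Cob.ev_map, Cob.ev_univ]

theorem ev_scale_N {z : Cob Laz n} (hz : z ∈ 𝒞.N n) :
    Cob.ev (((𝒞.eQ n).map LaurentPolynomial.C).scale (unitT _)) z = 0 := by
  apply AddMonoidAlgebra.coeff_injective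
  ext w
  rw [Cob.coeff_ev_scale, ev_eQ]
  refine 𝒞.mkQ_eq_zero.2 (𝒞.mem_N'.2 fun B _ c hc => ?_)
  rw [← Cob.coeff_ev_scale, Chain.map_res, map_toLaz, ← Cob.res_scale, ← toLaz_scW,
    𝒞.mem_N'.1 hz _ _ (𝒞.scW _ _ (𝒞.map _ _ hc))]
  rfl

theorem eQ_map_lift (e : Chain Laz n B) (h : ∀ z ∈ 𝒞.N n, Cob.ev e z = 0) :
    (𝒞.eQ n).map (𝒞.liftQ (Cob.ev e) h) = e := by
  rw [eQ, chain_map_map, liftQ_comp, Cob.univ_map_ev]

/-- the grading of the quotient ring -/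
def gQ (n : ℕ) : Grd (𝒞.Q n) where
  G w := (Cob.wt Laz n w).map (𝒞.mkQ n).toAddMonoidHom
  one_mem := ⟨1, Cob.isWt_one, map_one (𝒞.mkQ n)⟩
  mul_mem := by
    rintro v w _ _ ⟨a, ha, rfl⟩ ⟨b, hb, rfl⟩
    exact ⟨a * b, Cob.IsWt.mul ha hb, map_mul (𝒞.mkQ n) a b⟩

theorem nonNeg_gQ : (𝒞.gQ n).NonNeg := by
  rintro w _ ⟨a, ha, rfl⟩ hw
  rw [Vale.Agent.P257.H314.eq_zero_of_isWt_neg hw ha, map_zero]

open LaurentPolynomial in
/-- the coaction -/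
def σ (n : ℕ) : 𝒞.Q n →+* (𝒞.Q n)[T;T⁻¹] :=
  𝒞.liftQ (Cob.ev (((𝒞.eQ n).map LaurentPolynomial.C).scale (unitT _)))
    fun _ hz => 𝒞.ev_scale_N hz

open LaurentPolynomial in
theorem mem_gQ_of_σ {w : ℤ} {b : 𝒞.Q n} (h : 𝒞.σ n b = T w * LaurentPolynomial.C b) :
    b ∈ (𝒞.gQ n).G w := by
  obtain ⟨z, rfl⟩ := 𝒞.mkQ_surjective b
  have h1 : (Cob.ev (((𝒞.eQ n).map LaurentPolynomial.C).scale (unitT _)) z).coeff w =
      (LaurentPolynomial.C (𝒞.mkQ n z) * T w : (𝒞.Q n)[T;T⁻¹]).coeff w :=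
    congrArg (fun f : (𝒞.Q n)[T;T⁻¹] => f.coeff w) (h.trans (mul_comm _ _))
  rw [Cob.coeff_ev_scale, coeff_C_mul_T, if_pos rfl, ev_eQ] at h1
  exact ⟨_, Cob.isWt_proj w z, h1⟩

end Cls

namespace Cls

variable {m : ℕ} (𝒞 : Cls p (ZMod m)) (hk : PLoc p (ZMod m))

theorem cast_eq_zero (n : ℕ) : (m : 𝒞.Q n) = 0 := by
  rw [← map_natCast (𝒞.mkQ n), mkQ_eq_zero, mem_N,
    map_natCast, ← map_natCast ((C : Av (ZMod m) →+* W (ZMod m) (n + 1)).comp C),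
    ZMod.natCast_self, map_zero]
  exact zero_mem _

/-- the structure map of the quotient ring -/
def θ (n : ℕ) : ZMod m →+* 𝒞.Q n :=
  ZMod.castHom (show ringChar (𝒞.Q n) ∣ m from (ringChar.spec _ m).1 (𝒞.cast_eq_zero n)) _

/-- the universal chain with a typical vertex over the quotient ring -/
def cQ (n : ℕ) : Chain (Av (ZMod m)) (n + 1) (𝒞.Q n) :=
  P236D.mk0 p (hk.map (𝒞.θ n)) (𝒞.θ n) (𝒞.eQ n)

theorem mem_cQ : 𝒞.mem (𝒞.cQ hk n) := 𝒞.mk0 _ _ _ fun z hz => by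
  rw [ev_eQ]
  exact 𝒞.mkQ_eq_zero.2 (𝒞.mem_N'.2 hz)

theorem cQ_σ : (𝒞.cQ hk n).map (𝒞.σ n) =
    P236D.scW p ((𝒞.cQ hk n).map LaurentPolynomial.C) (unitT _) := by
  rw [cQ, map_mk0, map_mk0, scW_mk0, σ, eQ_map_lift]
  congr 1
  exact RingHom.ext_zmod _ _

theorem wt_cQ : (gA p (ZMod m)).Map (𝒞.gQ n) (𝒞.cQ hk n).pt := fun w b hb => by
  apply 𝒞.mem_gQ_of_σ
  have h1 := wt_C p (n := n + 1) w b hb _ ((𝒞.cQ hk n).map LaurentPolynomial.C) (unitT _)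
  rwa [← cQ_σ, Cob.ev_C, Cob.ev_C, unitT_zpow] at h1

/-- the comparison with the polynomial ring -/
def Θ (n : ℕ) : W (ZMod m) (n + 1) →+* MvPolynomial ℕ (𝒞.Q n) := Th p (𝒞.cQ hk n)

theorem Θ_iW (z : Cob Laz n) : 𝒞.Θ hk n (iW p _ n z) = C (𝒞.mkQ n z) := by
  rw [Θ, Th_iW, cQ, res_mk0, ev_eQ]

theorem Θ_tb (i : ℕ) : 𝒞.Θ hk n (tb hk n i) = X i := by
  rw [Θ, Th, cQ, map_mk0, ev_tb]

theorem Θ_actW (ξ : (ℕ →₀ ℕ) → Av (ZMod m)) (x : W (ZMod m) (n + 1)) :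
    𝒞.Θ hk n (actW p ξ (n + 1) x) = actB p (𝒞.cQ hk n).pt ξ (𝒞.Θ hk n x) := Th_actW p _ _ _

theorem Θ_eq_zero {x : W (ZMod m) (n + 1)} : 𝒞.Θ hk n x = 0 ↔ x ∈ 𝒞.J (n + 1) := by
  refine ⟨fun h B _ c hc => ?_, 𝒞.Th_J (𝒞.mem_cQ hk)⟩
  have h0 : ∀ z ∈ 𝒞.N n, Cob.ev ((toLaz p c).res Fin.succ) z = 0 :=
    fun z hz => 𝒞.mem_N'.1 hz _ _ hc
  have h1 := comp_Th p (eval₂Hom (𝒞.liftQ _ h0) fun i => Cob.ev c (tb hk n i))
    (𝒞.cQ hk n) x
  simp only [eval₂Hom_comp_C, eval₂Hom_X'] at h1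
  rw [cQ, map_mk0, eQ_map_lift, RingHom.ext_zmod (RingHom.comp _ (𝒞.θ n)) (c.pt.comp C),
    ← eq_mv_tb hk c] at h1
  rw [← h1]
  exact (congrArg _ h).trans (map_zero _)

theorem wt_Θ : (gW p (ZMod m) (n + 1)).Map ((𝒞.gQ n).poly (wz p)) (𝒞.Θ hk n) :=
  fun _ _ hx J => 𝒞.mem_gQ_of_σ (coact_coeff_Th p (𝒞.cQ_σ hk) hx J)

theorem exists_Θ {w : ℤ} {q : MvPolynomial ℕ (𝒞.Q n)} (hq : q ∈ ((𝒞.gQ n).poly (wz p)).G w) :
    ∃ x ∈ (gW p (ZMod m) (n + 1)).G w, 𝒞.Θ hk n x = q := by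
  let 𝒢 : Grd (MvPolynomial ℕ (𝒞.Q n)) :=
    { G := fun w => ((gW p (ZMod m) (n + 1)).G w).map (𝒞.Θ hk n).toAddMonoidHom
      one_mem := ⟨1, (gW p _ _).one_mem, map_one (𝒞.Θ hk n)⟩
      mul_mem := by
        rintro v w _ _ ⟨a, ha, rfl⟩ ⟨b, hb, rfl⟩
        exact ⟨a * b, (gW p _ _).mul_mem ha hb, map_mul (𝒞.Θ hk n) a b⟩ }
  have h1 : (𝒞.gQ n).Map 𝒢 C := by
    rintro w _ ⟨z, hz, rfl⟩
    exact ⟨_, iW_mem p hz, 𝒞.Θ_iW hk z⟩
  have h2 := h1.eval₂ (wt := wz p) (t := X) (fun i => ⟨_, tb_mem hk i, 𝒞.Θ_tb hk i⟩) w q hq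
  rwa [coe_eval₂Hom, eval₂_eta] at h2

end Cls

end Vale.Agent.P236D
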