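import Mathlib.Algebra.Group.Subgroup.Basic
import Mathlib.Algebra.Module.NatInt
import Mathlib.Algebra.Ring.Parity
import Mathlib.Tactic.Abel
import Mathlib.Tactic.Ring

/-!
# P236, block DGM: the zigzag in a double complex

`K a` carries two commuting differentials `d`, `X`; the rows have the contraction `h`, the columns
`a + 1` are resolutions of `L a` modulo the subgroups `J`.
-/

namespace Vale.Agent.P236D

/-- double complexes with contractible rows -/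
structure DC (K L : ℕ → Type) [∀ a, AddCommGroup (K a)] [∀ a, AddCommGroup (L a)] where
  /-- the homogeneous elements of degree `s` -/
  P : ∀ a, ℕ → AddSubgroup (K a)
  /-- the homogeneous elements -/
  Q : ∀ n, AddSubgroup (L n)
  /-- the horizontal differential -/
  d : ∀ a, K a →+ K (a + 1)
  /-- the contraction -/
  h : ∀ a, K (a + 1) →+ K a
  /-- the vertical differential -/
  X : ∀ a, K a →+ K a
  /-- the augmentation of the columns -/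
  i : ∀ n, L n →+ K (n + 1)
  /-- the differential of `L` -/
  dL : ∀ n, L n →+ L (n + 1)
  d_P : ∀ a s u, u ∈ P a s → d a u ∈ P (a + 1) s
  h_P : ∀ a s u, u ∈ P (a + 1) s → h a u ∈ P a s
  X_P : ∀ a s u, u ∈ P a s → X a u ∈ P a (s + 1)
  i_P : ∀ n z, z ∈ Q n → i n z ∈ P (n + 1) 0
  hd0 : ∀ u, h 0 (d 0 u) = u
  hd : ∀ a u, h (a + 1) (d (a + 1) u) = d a (h a u) + (-1 : ℤ) ^ (a + 1) • u
  dd : ∀ a u, d (a + 1) (d a u) = 0
  Xd : ∀ a u, X (a + 1) (d a u) = d a (X a u)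
  XX : ∀ a s u, u ∈ P (a + 1) s → X (a + 1) (X (a + 1) u) = 0
  di : ∀ n z, d (n + 1) (i n z) = i (n + 1) (dL n z)
  Xi : ∀ n z, X (n + 1) (i n z) = 0

namespace DC

variable {K L : ℕ → Type} [∀ a, AddCommGroup (K a)] [∀ a, AddCommGroup (L a)] (D : DC K L)

/-- the zigzag -/
def zz (h : ∀ a, K (a + 1) →+ K a) (X : ∀ a, K a →+ K a) : ∀ a, K a →+ K 0
  | 0 => AddMonoidHom.id _
  | a + 1 => (zz h X a).comp ((h a).comp (X (a + 1)))

/-- the zigzag -/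
def Φ (a : ℕ) : K a →+ K 0 := zz D.h D.X a

theorem Φ_zero (u : K 0) : D.Φ 0 u = u := rfl

theorem Φ_succ (a : ℕ) (u : K (a + 1)) : D.Φ (a + 1) u = D.Φ a (D.h a (D.X (a + 1) u)) := rfl

/-- the comparison map -/
def φ (n : ℕ) : L n →+ K 0 := (D.Φ n).comp ((D.h n).comp (D.i n))

theorem φ_apply (n : ℕ) (z : L n) : D.φ n z = D.Φ n (D.h n (D.i n z)) := rfl

theorem Φ_P (a : ℕ) : ∀ (s : ℕ) (u : K a), u ∈ D.P a s → D.Φ a u ∈ D.P 0 (s + a) := by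
  induction a with
  | zero => exact fun _ _ h => h
  | succ a ih =>
    intro s u hu
    have h := ih _ _ (D.h_P _ _ _ (D.X_P _ _ _ hu))
    rwa [add_assoc, add_comm 1 a] at h

theorem φ_P {n : ℕ} {z : L n} (hz : z ∈ D.Q n) : D.φ n z ∈ D.P 0 n := by
  have h := D.Φ_P n 0 _ (D.h_P _ _ _ (D.i_P n z hz))
  rwa [zero_add] at h

theorem Φ_d (a : ℕ) : ∀ (s : ℕ) (u : K a), u ∈ D.P a s →
    D.Φ (a + 1) (D.d a u) = D.X 0 (D.Φ a u) := by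
  induction a with
  | zero =>
    intro s u _
    rw [Φ_succ, D.Xd, D.hd0, Φ_zero, Φ_zero]
  | succ a ih =>
    intro s u hu
    rw [Φ_succ, D.Xd, D.hd, map_add, ih _ _ (D.h_P _ _ _ (D.X_P _ _ _ hu)), map_zsmul,
      D.Φ_succ a u, D.Φ_succ a (D.X _ u), D.XX _ _ _ hu, map_zero, map_zero, smul_zero, add_zero]

/-- the comparison map is a chain map -/
theorem φ_d {n : ℕ} {z : L n} (hz : z ∈ D.Q n) : D.φ (n + 1) (D.dL n z) = D.X 0 (D.φ n z) := by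
  rw [φ_apply, ← D.di, D.hd, map_add, D.Φ_d _ _ _ (D.h_P _ _ _ (D.i_P n z hz)), map_zsmul, Φ_succ,
    D.Xi, map_zero, map_zero, smul_zero, add_zero, φ_apply]

/-- the columns are exact modulo `J` in degrees `≤ S` -/
structure Col (J : ∀ a, AddSubgroup (K a)) (S : ℕ) : Prop where
  d_J : ∀ a u, u ∈ J a → D.d a u ∈ J (a + 1)
  h_J : ∀ a u, u ∈ J (a + 1) → D.h a u ∈ J a
  X_J : ∀ a u, u ∈ J a → D.X a u ∈ J a
  zero : ∀ a u, u ∈ D.P (a + 1) 0 → D.X (a + 1) u ∈ J (a + 1) →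
    ∃ z ∈ D.Q a, u - D.i a z ∈ J (a + 1)
  succ : ∀ a s u, s + 1 ≤ S → u ∈ D.P (a + 1) (s + 1) → D.X (a + 1) u ∈ J (a + 1) →
    ∃ v ∈ D.P (a + 1) s, u - D.X (a + 1) v ∈ J (a + 1)

theorem sgn_sgn {M : Type} [AddCommGroup M] (a : ℕ) (u : M) :
    (-1 : ℤ) ^ a • (-1 : ℤ) ^ a • u = u := by
  rw [smul_smul, ← mul_pow, neg_mul_neg, one_mul, one_pow, one_smul]

variable {D} {J : ∀ a, AddSubgroup (K a)} {S : ℕ}

theorem Col.Φ_J (C : D.Col J S) (a : ℕ) : ∀ u : K a, u ∈ J a → D.Φ a u ∈ J 0 := by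
  induction a with
  | zero => exact fun _ h => h
  | succ a ih => exact fun u hu => ih _ (C.h_J _ _ (C.X_J _ _ hu))

/-- a closed element is `± d h` of itself -/
theorem Col.dh (C : D.Col J S) {a : ℕ} {u : K (a + 1)} (hu : D.d (a + 1) u ∈ J (a + 2)) :
    u - D.d a (-((-1 : ℤ) ^ (a + 1) • D.h a u)) ∈ J (a + 1) := by
  have h := (J (a + 1)).zsmul_mem (C.h_J _ _ hu) ((-1 : ℤ) ^ (a + 1))
  rw [D.hd, smul_add, sgn_sgn] at h
  rwa [map_neg, map_zsmul, sub_neg_eq_add, add_comm u]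

theorem Col.step (C : D.Col J S) {a s : ℕ} {u : K (a + 1)} {v : K a} (hv : v ∈ D.P a s)
    (hX : D.d (a + 1) (D.X (a + 1) u) ∈ J (a + 2))
    (h : D.d a (D.h a (D.X (a + 1) u)) - D.d a (D.X a v) ∈ J (a + 1)) :
    ∃ v' ∈ D.P a s, D.X (a + 1) (u - D.d a v') ∈ J (a + 1) := by
  refine ⟨-((-1 : ℤ) ^ (a + 1) • v), neg_mem (AddSubgroup.zsmul_mem _ hv _), ?_⟩
  have h1 := sub_mem (C.dh hX) ((J (a + 1)).zsmul_mem h ((-1 : ℤ) ^ (a + 1)))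
  rw [map_sub, D.Xd]
  convert h1 using 1
  simp only [map_neg, map_zsmul, smul_sub]
  abel

theorem Col.inj_aux (C : D.Col J S) (a : ℕ) : ∀ (s : ℕ) (u : K a) (c : K 0), s + a ≤ S →
    u ∈ D.P a (s + 1) → D.d a (D.X a u) ∈ J (a + 1) → c ∈ D.P 0 (s + a) →
    D.Φ a u - D.X 0 c ∈ J 0 → ∃ v ∈ D.P a s, D.d a u - D.d a (D.X a v) ∈ J (a + 1) := by
  induction a with
  | zero =>
    intro s u c _ _ _ hc h
    exact ⟨c, hc, by rw [← map_sub]; exact C.d_J _ _ h⟩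
  | succ a ih =>
    intro s u c hs hu hX hc h
    have h0 : D.d a (D.X a (D.h a (D.X (a + 1) u))) ∈ J (a + 1) := by
      have h1 := (J (a + 1)).zsmul_mem (C.X_J _ _ (C.dh hX)) ((-1 : ℤ) ^ (a + 1))
      rwa [map_sub, D.XX _ _ _ hu, D.Xd, map_neg, map_neg, zero_sub, neg_neg, map_zsmul, map_zsmul,
        sgn_sgn] at h1
    obtain ⟨v, hv, h1⟩ := ih (s + 1) _ c (by omega) (D.h_P _ _ _ (D.X_P _ _ _ hu)) h0
      (by rwa [add_assoc, add_comm 1 a]) h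
    obtain ⟨v', hv', h2⟩ := C.step hv hX h1
    obtain ⟨y, hy, h3⟩ := C.succ a s _ (by omega) (sub_mem hu (D.d_P _ _ _ hv')) h2
    refine ⟨y, hy, ?_⟩
    have h4 := C.d_J _ _ h3
    rwa [map_sub, map_sub, D.dd, sub_zero] at h4

/-- **injectivity on cohomology** -/
theorem Col.inj (C : D.Col J S) {n : ℕ} (hn : n ≤ S) {z : L (n + 1)} (hz : z ∈ D.Q (n + 1))
    (hd : D.i (n + 2) (D.dL (n + 1) z) ∈ J (n + 3)) {c : K 0} (hc : c ∈ D.P 0 n)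
    (h : D.φ (n + 1) z - D.X 0 c ∈ J 0) :
    ∃ y ∈ D.Q n, D.i (n + 1) (z - D.dL n y) ∈ J (n + 2) := by
  rw [← D.di] at hd
  have h0 := C.dh hd
  have hu := D.h_P _ _ _ (D.i_P _ z hz)
  set u := D.h (n + 1) (D.i (n + 1) z) with hu0
  have hX : D.d (n + 1) (D.X (n + 1) u) ∈ J (n + 2) := by
    have h1 := (J (n + 2)).zsmul_mem (C.X_J _ _ h0) ((-1 : ℤ) ^ (n + 1 + 1))
    rwa [map_sub, D.Xi, D.Xd, map_neg, map_neg, zero_sub, neg_neg, map_zsmul, map_zsmul,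
      sgn_sgn] at h1
  have h1 : D.d n (D.X n (D.h n (D.X (n + 1) u))) ∈ J (n + 1) := by
    have h1 := (J (n + 1)).zsmul_mem (C.X_J _ _ (C.dh hX)) ((-1 : ℤ) ^ (n + 1))
    rwa [map_sub, D.XX _ _ _ hu, D.Xd, map_neg, map_neg, zero_sub, neg_neg, map_zsmul, map_zsmul,
      sgn_sgn] at h1
  obtain ⟨v, hv, h2⟩ := C.inj_aux n 0 _ c (by omega) (D.h_P _ _ _ (D.X_P _ _ _ hu)) h1
    (by rwa [zero_add]) h
  obtain ⟨v', hv', h3⟩ := C.step hv hX h2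
  obtain ⟨y, hy, h4⟩ := C.zero n _ (sub_mem hu (D.d_P _ _ _ hv')) h3
  refine ⟨-((-1 : ℤ) ^ (n + 1 + 1) • y), neg_mem (AddSubgroup.zsmul_mem _ hy _), ?_⟩
  have h5 := C.d_J _ _ h4
  rw [map_sub, map_sub, D.dd, sub_zero, D.di] at h5
  have h6 := sub_mem h0 ((J (n + 2)).zsmul_mem h5 ((-1 : ℤ) ^ (n + 1 + 1)))
  convert h6 using 1
  simp only [map_sub, map_neg, map_zsmul, smul_sub]
  abel

theorem Col.inj0 (C : D.Col J S) {z : L 0} (hd : D.i 1 (D.dL 0 z) ∈ J 2) (h : D.φ 0 z ∈ J 0) :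
    D.i 0 z ∈ J 1 := by
  rw [← D.di] at hd
  have h1 := add_mem (C.dh hd) (C.d_J _ _ (neg_mem ((J 0).zsmul_mem h ((-1 : ℤ) ^ (0 + 1)))))
  rwa [φ_apply, Φ_zero, sub_add_cancel] at h1

/-- `Φ (h d u) = ± Φ u` modulo boundaries -/
theorem Φ_hd (D : DC K L) {a s : ℕ} {u : K (a + 1)} (hu : u ∈ D.P (a + 1) s) :
    D.Φ (a + 1) (D.h (a + 1) (D.d (a + 1) u)) =
      D.X 0 (D.Φ a (D.h a u)) + (-1 : ℤ) ^ (a + 1) • D.Φ (a + 1) u := by
  rw [D.hd, map_add, D.Φ_d _ _ _ (D.h_P _ _ _ hu), map_zsmul]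

theorem Col.surj_aux (C : D.Col J S) {n : ℕ} (hn : n + 1 ≤ S) {c : K 0} (hc : c ∈ D.P 0 (n + 1))
    (hX : D.X 0 c ∈ J 0) (a : ℕ) : ∀ s, s + a = n + 1 → ∃ u ∈ D.P a s,
      D.X (a + 1) (D.d a u) ∈ J (a + 1) ∧
      ∃ c' ∈ D.P 0 n, c - D.Φ a (D.h a (D.d a u)) - D.X 0 c' ∈ J 0 := by
  induction a with
  | zero =>
    rintro s rfl
    refine ⟨c, hc, by rw [D.Xd]; exact C.d_J _ _ hX, 0, zero_mem _, ?_⟩
    rw [D.hd0, Φ_zero, map_zero, sub_self, sub_zero]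
    exact zero_mem _
  | succ a ih =>
    intro s hs
    obtain ⟨u, hu, h1, c', hc', h2⟩ := ih (s + 1) (by omega)
    obtain ⟨v, hv, h3⟩ := C.succ a s _ (by omega) (D.d_P _ _ _ hu) h1
    have hv' := AddSubgroup.zsmul_mem _ hv ((-1 : ℤ) ^ (a + 1))
    refine ⟨_, hv', ?_, c' - D.Φ a (D.h a ((-1 : ℤ) ^ (a + 1) • v)), sub_mem hc' ?_, ?_⟩
    · have h4 := neg_mem (C.d_J _ _ h3)
      rw [map_sub, D.dd, zero_sub, neg_neg] at h4
      rw [D.Xd, map_zsmul, map_zsmul]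
      exact AddSubgroup.zsmul_mem _ h4 _
    · have h4 := D.Φ_P a s _ (D.h_P _ _ _ hv')
      rwa [show s + a = n by omega] at h4
    · have h4 := add_mem h2 (C.Φ_J a _ (C.h_J _ _ h3))
      rw [D.Φ_hd hv', map_zsmul (D.Φ (a + 1)), sgn_sgn, Φ_succ]
      convert h4 using 1
      simp only [map_sub]
      abel

/-- **surjectivity on cohomology** -/
theorem Col.surj (C : D.Col J S) {n : ℕ} (hn : n + 1 ≤ S) {c : K 0} (hc : c ∈ D.P 0 (n + 1))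
    (hX : D.X 0 c ∈ J 0) : ∃ z ∈ D.Q (n + 1), D.i (n + 2) (D.dL (n + 1) z) ∈ J (n + 3) ∧
      ∃ c' ∈ D.P 0 n, c - D.φ (n + 1) z - D.X 0 c' ∈ J 0 := by
  obtain ⟨u, hu, h1, c', hc', h2⟩ := C.surj_aux hn hc hX (n + 1) 0 (zero_add _)
  obtain ⟨z, hz, h3⟩ := C.zero _ _ (D.d_P _ _ _ hu) h1
  refine ⟨z, hz, ?_, c', hc', ?_⟩
  · have h4 := neg_mem (C.d_J _ _ h3)
    rwa [map_sub, D.dd, zero_sub, neg_neg, D.di] at h4
  · have h4 := add_mem h2 (C.Φ_J _ _ (C.h_J _ _ h3))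
    convert h4 using 1
    simp only [map_sub, φ_apply]
    abel

theorem Col.surj0 (C : D.Col J S) {c : K 0} (hc : c ∈ D.P 0 0) (hX : D.X 0 c ∈ J 0) :
    ∃ z ∈ D.Q 0, D.i 1 (D.dL 0 z) ∈ J 2 ∧ c - D.φ 0 z ∈ J 0 := by
  obtain ⟨z, hz, h3⟩ := C.zero 0 _ (D.d_P _ _ _ hc) (by rw [D.Xd]; exact C.d_J _ _ hX)
  refine ⟨z, hz, ?_, ?_⟩
  · have h4 := neg_mem (C.d_J _ _ h3)
    rwa [map_sub, D.dd, zero_sub, neg_neg, D.di] at h4
  · have h4 := C.h_J _ _ h3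
    rwa [map_sub, D.hd0] at h4

end DC

end Vale.Agent.P236D
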