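import Vale.Agent.P236D.Prim
import Vale.Agent.P236B.Ghost
import Vale.Agent.P236K.BNe

/-!
# P236, block ORD: the Bockstein of `h_(j+1)` is `b_j`

`lead_eq`, `lead_iff` : if `d x = 3 x₂` in weight `2 * 3 ^ (j + 1)`, then `x` reduces to
`c t_1 ^ (3 ^ (j + 1))` and `x₂` reduces to `- c b_j` up to a coboundary.
-/

noncomputable section

namespace Vale.Agent.P236D

open Vale.Agent.P251.F Vale.Agent.P236A Vale.Agent.P236B Vale.Agent.P257.H93 Vale.Agent.P236K
  MvPolynomial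
open Vale.Agent.P257.H134 (comp cp bP)

theorem taylor {A : Type} [CommRing A] (Y : MvPolynomial ℕ A) : ∃ n0 : ℕ, ∀ n, n0 ≤ n →
    ∀ (B : Type) [CommRing B] (φ : A →+* B) (a : B) (u : ℕ → B),
      a ^ 2 ∣ eval₂Hom φ (fun i => a * u i) Y - φ (coeff 0 Y) -
        a * ∑ i ∈ Finset.range n, u i * φ (coeff (Finsupp.single i 1) Y) := by
  classical
  induction Y using MvPolynomial.induction_on with
  | C c =>
    refine ⟨0, fun n _ B _ φ a u => ?_⟩
    have h : ∀ i : ℕ, (0 : ℕ →₀ ℕ) ≠ Finsupp.single i 1 := fun i =>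
      (Finsupp.single_ne_zero.2 one_ne_zero).symm
    simp [coeff_C, h]
  | add Y Y' h h' =>
    obtain ⟨n0, h⟩ := h
    obtain ⟨n1, h'⟩ := h'
    refine ⟨max n0 n1, fun n hn B _ φ a u => ?_⟩
    convert dvd_add (h n (le_of_max_le_left hn) B φ a u) (h' n (le_of_max_le_right hn) B φ a u)
      using 1
    simp only [map_add, coeff_add, mul_add, Finset.sum_add_distrib]
    ring
  | mul_X Y s h =>
    obtain ⟨n0, h⟩ := h
    refine ⟨max n0 (s + 1), fun n hn B _ φ a u => ?_⟩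
    obtain ⟨r, hr⟩ := h n (le_of_max_le_left hn) B φ a u
    rw [Finset.sum_eq_single_of_mem s (Finset.mem_range.2 (le_of_max_le_right hn))
      fun i _ hi => by
        rw [coeff_mul_X', if_neg (by simpa [Finsupp.single_apply] using Ne.symm hi), map_zero, mul_zero],
      map_mul, eval₂Hom_X', coeff_mul_X', coeff_mul_X', if_neg (by simp), if_pos (by simp),
      tsub_self, map_zero, sub_zero]
    exact ⟨u s * (a * r + ∑ i ∈ Finset.range n, u i * φ (coeff (Finsupp.single i 1) Y)), by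
      linear_combination a * u s * hr⟩

variable {p : ℕ} [hp : Fact p.Prime] {B K : Type} [CommRing B] [CommRing K] [FpA p K]

theorem log_sq {v μ : ℕ → B} (h : IsLog p v μ) (n : ℕ) :
    ∃ r, v n = p * (μ (n + 1) + p * r) := by
  induction n using Nat.strong_induction_on with
  | _ n ih =>
    have h1 := h.2 n
    rw [Finset.sum_range_succ', h.1, one_mul, pow_zero, pow_one, Nat.sub_zero] at h1
    obtain ⟨r, hr⟩ : (p : B) ^ 2 ∣ ∑ i ∈ Finset.range n,
        μ (i + 1) * v (n - (i + 1)) ^ p ^ (i + 1) := Finset.dvd_sum fun i hi => by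
      obtain ⟨r, hr⟩ := ih (n - (i + 1)) (by have := Finset.mem_range.1 hi; omega)
      rw [hr, mul_pow]
      exact ((pow_dvd_pow _ (Nat.one_lt_pow (Nat.succ_ne_zero i) hp.out.one_lt)).mul_right
        _).mul_left _
    exact ⟨-r, by linear_combination -h1 - hr⟩

omit hp in
theorem exists_isLog (m : ℕ → B) : ∃ v, IsLog p v (hat m) := by
  have h := (isLog_vM p).map p (eval₂Hom (Int.castRingHom B) m)
  simp only [mm, map_hat, eval₂Hom_X'] at h
  exact ⟨_, h⟩

/-- integral polynomials in the coordinates of `n` arrows -/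
abbrev RZ (n : ℕ) : Type := MvPolynomial (Fin n × ℕ) ℤ

/-- evaluation -/
def evT (s : ℕ → B) : RZ 1 →+* B := eval₂Hom (Int.castRingHom B) fun ki => s ki.2

variable (p) in
/-- reduction modulo `p` -/
def rdZ (n : ℕ) : RZ n →+* CobP p n := map (Int.castRingHom (ZMod p))

omit hp in
theorem map_evT (π : B →+* K) (s : ℕ → B) (c : RZ 1) :
    π (evT s c) = evP1 p (fun i => π (s i)) (rdZ p 1 c) :=
  DFunLike.congr_fun (hom_ext_int' (f := π.comp (evT s))
    (g := (evP1 p fun i => π (s i)).comp (rdZ p 1)) fun ki => by simp [evT, evP1, rdZ]) c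
where
  hom_ext_int' {f g : RZ 1 →+* K} (h : ∀ ki, f (X ki) = g (X ki)) : f = g :=
    MvPolynomial.ringHom_ext' (RingHom.ext_int _ _) h

variable (p) in
/-- the expansion of a cochain in the `v_i` -/
def YY (x : Cob Laz 1) : MvPolynomial ℕ (RZ 1) := E1 p X (fun i => C (X (0, i))) x

theorem E1_eq (v s : ℕ → B) (x : Cob Laz 1) : E1 p v s x = eval₂Hom (evT s) v (YY p x) := by
  rw [YY, map_E1]
  simp [evT]

variable (p) in
/-- the linear coefficients -/
def cY (x : Cob Laz 1) (i : ℕ) : CobP p 1 := rdZ p 1 (coeff (Finsupp.single i 1) (YY p x))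

theorem rdZ_coeff_zero (x : Cob Laz 1) : rdZ p 1 (coeff 0 (YY p x)) = fP p 1 x := by
  rw [← evP1_X p (fP p 1 x), ← E1_zero, ← constantCoeff_eq, YY, map_E1, map_E1]
  simp [rdZ]

theorem cY_wt {w : ℤ} {x : Cob Laz 1} (hx : Cob.IsWt w x) (i : ℕ) :
    IsWtP p 1 (w - wz p i) (cY p x i) := by
  have h := E1_mem p (((Grd.triv ℤ).poly (wX p 1)).poly (wz p)) (Grd.X_mem _ _)
    (fun i => Grd.C_mem _ (Grd.X_mem _ _ (0, i))) hx (Finsupp.single i 1)
  rw [Finsupp.weight_single, one_smul] at h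
  exact Grd.isWH_iff.2 ((Grd.map_triv _).map _ _ _ h)

theorem exists_E1 (x : Cob Laz 1) : ∃ n : ℕ, ∀ (B K : Type) [CommRing B] [CommRing K] [FpA p K]
    (π : B →+* K) (v μ s : ℕ → B), IsLog p v μ → ∃ r,
      E1 p v s x = evT s (coeff 0 (YY p x)) + p * r ∧ π r = ∑ i ∈ Finset.range n,
        π (μ (i + 1)) * evP1 p (fun i => π (s i)) (cY p x i) := by
  obtain ⟨n, h⟩ := taylor (YY p x)
  refine ⟨n, fun B K _ _ _ π v μ s hv => ?_⟩
  choose r hr using log_sq hv
  obtain ⟨r', h1⟩ := h n le_rfl B (evT s) p fun i => μ (i + 1) + p * r i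
  rw [← funext hr, ← E1_eq] at h1
  refine ⟨p * r' + ∑ i ∈ Finset.range n,
    (μ (i + 1) + p * r i) * evT s (coeff (Finsupp.single i 1) (YY p x)),
    by linear_combination h1, ?_⟩
  simp only [map_add, map_mul, map_natCast, map_sum, FpA.cast, zero_mul, zero_add, add_zero,
    map_evT (p := p) π, cY]

omit hp in
theorem exists_of_rdZ {n : ℕ} {a : RZ n} (h : rdZ p n a = 0) : ∃ b, a = p * b := by
  rw [← map_natCast (C : ℤ →+* RZ n)]
  exact (C_dvd_iff_zmod p a).2 h

theorem pow_pow_sub (a b : B) (j : ℕ) : ∃ r, (a + b) ^ p ^ (j + 1) - a ^ p ^ (j + 1) -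
    b ^ p ^ (j + 1) = p * (cp p (a ^ p ^ j) (b ^ p ^ j) + p * r) := by
  obtain ⟨r, hr⟩ := exists_add_pow_prime_pow_eq hp.out a b j
  obtain ⟨r', hr'⟩ := dvd_pow_sub p (a := (a + b) ^ p ^ j) (b := a ^ p ^ j + b ^ p ^ j) (e := 0)
    ⟨a * b * r, by rw [hr]; ring⟩ 1
  have h := Vale.Agent.P257.H134.p_mul_cp p (a ^ p ^ j) (b ^ p ^ j)
  rw [pow_one] at hr'
  refine ⟨r', ?_⟩
  simp only [pow_succ p j, pow_mul]
  linear_combination hr' - h

/-- the first order expansion of the equation `d x = p x₂` -/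
theorem expand_eq {x : Cob Laz 1} {x₂ : Cob Laz 2} (h : Cob.d 1 x = (p : ℤ) • x₂) {c : ℤ} {j : ℕ}
    (hc : fP p 1 x = (c : CobP p 1) * X (0, 0) ^ p ^ (j + 1)) : ∃ (n : ℕ) (e : CobP p 1), ∀ m : ℕ → ℤ,
      fP p 2 x₂ = -(c : CobP p 2) * bP p 1 j + dP 1 e + ∑ i ∈ Finset.range n,
        (comp p (hat fun i => (m i : CobP p 2)) (hat fun i => X (0, i)) (i + 1) *
          evP1 p (fun i => X (1, i)) (cY p x i) - (m i : CobP p 2) * (evP1 p (fun i => X (1, i)) (cY p x i) -
            dP 1 (cY p x i))) := by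
  obtain ⟨n, hn⟩ := exists_E1 (p := p) x
  obtain ⟨c0, h0⟩ := exists_of_rdZ (p := p) 
    (a := coeff 0 (YY p x) - (c : RZ 1) * X (0, 0) ^ p ^ (j + 1))
    (by rw [map_sub, rdZ_coeff_zero, hc]; simp [rdZ])
  refine ⟨n, rdZ p 1 c0, fun m => ?_⟩
  have hB := reg_of_domain p (RZ 2)
  obtain ⟨v, hv⟩ := exists_isLog (p := p) fun i => (m i : RZ 2)
  let t : ℕ → RZ 2 := fun i => X (0, i)
  let t' : ℕ → RZ 2 := fun i => X (1, i)
  have hv0 : (fun i => rdZ p 2 (v i)) = fun _ => 0 := funext fun i => by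
    obtain ⟨r, hr⟩ := log_sq hv i
    rw [hr, map_mul, map_natCast, FpA.cast, zero_mul]
  have ht : (fun i => rdZ p 2 (t i)) = fun i => X (0, i) := funext fun i => map_X _ _
  have ht' : (fun i => rdZ p 2 (t' i)) = fun i => X (1, i) := funext fun i => map_X _ _
  obtain ⟨r1, h1, e1⟩ := hn _ _ (rdZ p 2) _ _ t' (hv.eta p hB t)
  obtain ⟨r2, h2, e2⟩ := hn _ _ (rdZ p 2) _ _ (del p v t t') hv
  obtain ⟨r3, h3, e3⟩ := hn _ _ (rdZ p 2) _ _ t hv
  obtain ⟨r4, h4⟩ := pow_pow_sub (p := p) (t 0) (t' 0) j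
  have h5 := E2_d p v t t' x
  have h6 : ∀ s : ℕ → RZ 2, evT s (coeff 0 (YY p x)) = (c : RZ 2) * s 0 ^ p ^ (j + 1) + p * evT s c0 :=
    fun s => by
      rw [sub_eq_iff_eq_add'.1 h0, map_add, map_mul, map_mul, map_intCast, map_natCast, map_pow,
        evT, eval₂Hom_X']
  rw [h, map_zsmul, zsmul_eq_mul, Int.cast_natCast, h1, h2, h3, h6, h6, h6, del_one] at h5
  have h7 : E2 p v t t' x₂ = -(c : RZ 2) * (cp p (t 0 ^ p ^ j) (t' 0 ^ p ^ j) + p * r4) +
      (evT t' c0 - evT (del p v t t') c0 + evT t c0) + (r1 - r2 + r3) :=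
    sub_eq_zero.1 (hB _ (by linear_combination h5 - (c : RZ 2) * h4))
  have h8 := congrArg (rdZ p 2) h7
  have h9 : ∀ y : CobP p 1, dP 1 y = evP1 p (fun i => X (1, i)) y -
      evP1 p (fun i => rdZ p 2 (del p v t t' i)) y + evP1 p (fun i => X (0, i)) y := fun y => by
    rw [← evP2_X p (dP 1 y), evP2_dP]
    simp only [map_del, hv0, ht, ht']
  rw [map_E2, hv0, ht, ht', E2_zero, evP2_X] at h8
  simp only [map_add, map_sub, map_mul, map_neg, map_intCast, map_natCast, FpA.cast, zero_mul,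
    add_zero, map_evT (p := p) (rdZ p 2), e1, e2, e3, ht, ht', Vale.Agent.P257.H134.map_cp,
    map_pow, map_comp, map_hat, hat_succ] at h8
  rw [h8, P236H.bP_one, h9, congrFun ht 0, congrFun ht' 0, ← Finset.sum_sub_distrib,
    ← Finset.sum_add_distrib]
  refine congrArg _ (Finset.sum_congr rfl fun i _ => ?_)
  rw [h9]
  ring

omit hp in
theorem comp_single_left (k : ℕ) (t : ℕ → B) (i : ℕ) :
    comp p (hat (Pi.single k 1)) (hat t) (i + 1) =
      t i + if k ≤ i then hat t (i - k) ^ p ^ (k + 1) else 0 := by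
  rw [comp_range, Finset.sum_range_succ', hat_zero, one_mul, pow_zero, pow_one, add_comm]
  congr 1
  simp only [hat_succ, Pi.single_apply, ite_mul, one_mul, zero_mul, Finset.sum_ite_eq',
    Finset.mem_range, Nat.lt_succ_iff, Nat.add_sub_add_right]

omit hp in
theorem comp_zero_left (t : ℕ → B) (i : ℕ) : comp p (hat fun _ => 0) (hat t) (i + 1) = t i := by
  rw [comp_range, Finset.sum_range_succ']
  simp

/-- **The Bockstein of `h_(j+1)`.** -/
theorem lead_eq (j : ℕ) (x : Co 1 (3 ^ (j + 1))) (x₂ : Co 2 (3 ^ (j + 1)))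
    (h : Cob.d 1 x.1 = (3 : ℤ) • x₂.1) : ∃ (c : ZMod 3) (e : CobP 3 1),
      fP 3 1 x.1 = C c * X (0, 0) ^ 3 ^ (j + 1) ∧ fP 3 2 x₂.1 = (-c) • bP 3 1 j + dP 1 e := by
  obtain ⟨c, n, hc, hn⟩ := prim (p := 3) (y := fP 3 1 x.1) (by
    rw [← fP_d, h, map_zsmul, zsmul_eq_mul]
    exact mul_eq_zero_of_left (FpA.cast (p := 3)) _) (fP_wt x.2)
  obtain ⟨c, rfl⟩ := ZMod.intCast_surjective c
  have hc' : fP 3 1 x.1 = (c : CobP 3 1) * X (0, 0) ^ 3 ^ (j + 1) := by
    rw [hc, map_intCast]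
    by_cases h0 : (c : ZMod 3) = 0
    · rw [← map_intCast (C : ZMod 3 →+* CobP 3 1), h0, map_zero, zero_mul, zero_mul]
    · have h1 := (hn h0).1
      rw [show n = 3 ^ (j + 1) by omega]
  obtain ⟨n, e, he⟩ := expand_eq (p := 3) h hc'
  have key : ∀ d k, n ≤ k + d → k < n → cY 3 x.1 k = 0 := fun d => by
    induction d with
    | zero => omega
    | succ d ih =>
      intro k _ hk
      have h1 := (he (Pi.single k 1)).symm.trans (he fun _ => 0)
      rw [add_right_inj, ← sub_eq_zero, ← Finset.sum_sub_distrib,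
        show (fun i => ((Pi.single k 1 : ℕ → ℤ) i : CobP 3 2)) = Pi.single k 1 from
          funext fun i => by simp [Pi.single_apply],
        Finset.sum_eq_single_of_mem k (Finset.mem_range.2 hk) fun i hi hik => ?_] at h1
      · simp only [comp_single_left, Int.cast_zero, comp_zero_left, le_rfl, if_true, Nat.sub_self,
          hat_zero, one_pow, Pi.single_eq_same, Int.cast_one] at h1
        obtain ⟨a, l, ha, hl⟩ := prim (p := 3) (y := cY 3 x.1 k) (by linear_combination h1)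
          (cY_wt x.2 k)
        by_cases h0 : a = 0
        · rw [ha, h0, map_zero, zero_mul]
        · obtain ⟨h2, h3⟩ := hl h0
          rw [wz] at h2
          push_cast at h2
          rw [pow_succ, pow_succ] at h2
          omega
      · simp only [comp_single_left, Int.cast_zero, comp_zero_left, Pi.single_eq_of_ne hik]
        split_ifs with h2
        · rw [ih i (by omega) (Finset.mem_range.1 hi)]
          simp
        · simp
  refine ⟨c, e, by rw [hc', map_intCast], ?_⟩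
  rw [he fun _ => 0, Finset.sum_eq_zero fun i hi => by
    rw [key n i (by omega) (Finset.mem_range.1 hi)]
    simp, add_zero, ← Int.cast_neg, ← Int.cast_neg, Int.cast_smul_eq_zsmul, zsmul_eq_mul]

/-- `x₂` is detected by `b_j` if and only if `x` is detected by `h_(j+1)`. -/
theorem lead_iff (j : ℕ) (x : Co 1 (3 ^ (j + 1))) (x₂ : Co 2 (3 ^ (j + 1)))
    (h : Cob.d 1 x.1 = (3 : ℤ) • x₂.1) : Lead j x₂ ↔ fP 3 1 x.1 ≠ 0 := by
  obtain ⟨c, e, h1, h2⟩ := lead_eq j x x₂ h
  constructor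
  · rintro ⟨ε, e', hε, h3⟩ h0
    rw [h1, mul_eq_zero, C_eq_zero, or_iff_left (pow_ne_zero _ (X_ne_zero _))] at h0
    rw [h3, h0, neg_zero, zero_smul, zero_add] at h2
    obtain ⟨k, hk⟩ := ZMod.intCast_surjective ε⁻¹
    refine bne j ⟨k • (e - e'), ?_⟩
    rw [map_zsmul, map_sub, ← h2, add_sub_cancel_right, ← Int.cast_smul_eq_zsmul (ZMod 3), hk,
      inv_smul_smul₀ hε]
  · intro h0
    exact ⟨-c, e, neg_ne_zero.2 fun hc => h0 (by rw [h1, hc, map_zero, zero_mul]), h2⟩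

end Vale.Agent.P236D
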