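import Vale.Agent.P236A.Wt
import Vale.Agent.P236K.Spec

/-!
# P236, block DGM: the comparison between the cobar complex and the small complex (interface)

`Cmp Γ δ S N` : a chain map `Φ` from `Cob Laz` to `C = ι → Av (ZMod 9)` with the differential
`X0 3 δ`, linear over the functions of the first vertex, which is an isomorphism on cohomology
modulo `3` in degrees `≤ S` (injective in degree `S + 1`) and weights `≤ N`.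
-/

noncomputable section

namespace Vale.Agent.P236D

open Vale.Agent.P251.F Vale.Agent.P236A Vale.Agent.P236B Vale.Agent.P257.H314
  Vale.Agent.P257.H93 MvPolynomial

/-- reduction modulo `3` -/
def r93 : ZMod 9 →+* ZMod 3 := ZMod.castHom (by norm_num) (ZMod 3)

/-- the Hazewinkel law over `k[v_1, v_2, …]` -/
def hzA (p : ℕ) [Fact p.Prime] (k : Type) [CommRing k] : Laz →+* Av k := Laz.lift (hz p X)

/-- reduction of vectors modulo `3` -/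
def red3 {ι : Type} (c : ι → Av (ZMod 9)) : ι → Av (ZMod 3) := fun g => map r93 (c g)

variable {ι : Type} [Fintype ι] [DecidableEq ι]

/-- The comparison map. -/
structure Cmp (Γ : Gens ι) (δ : Mat ι (Av (ZMod 9))) (S : ℕ) (N : ℤ) where
  /-- the chain map -/
  Φ : ∀ s : ℕ, Cob Laz s →+ (ι → Av (ZMod 9))
  hom : ∀ (s : ℕ) (w : ℤ) (z : Cob Laz s), Cob.IsWt w z → Hom 3 Γ s w (Φ s z)
  d : ∀ (s : ℕ) (w : ℤ) (z : Cob Laz s), w ≤ N → Cob.IsWt w z →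
    Φ (s + 1) (Cob.d s z) = X0 3 δ (Φ s z)
  smul : ∀ (s : ℕ) (a : Laz) (z : Cob Laz s), Φ s (C a * z) = hzA 3 (ZMod 9) a • Φ s z
  one : Φ 0 1 = Pi.single Γ.g0 1
  inj0 : ∀ (w : ℤ) (z : Cob Laz 0), Cob.IsWt w z → Cob.d 0 z ∈ IC 3 1 1 → red3 (Φ 0 z) = 0 →
    z ∈ IC 3 1 0
  inj : ∀ (s : ℕ) (w : ℤ) (z : Cob Laz (s + 1)) (c : ι → Av (ZMod 3)), s ≤ S → w ≤ N →
    Cob.IsWt w z → Cob.d (s + 1) z ∈ IC 3 1 (s + 2) → Hom 3 Γ s w c →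
    red3 (Φ (s + 1) z) = X0 3 (mapM r93 δ) c →
    ∃ y : Cob Laz s, Cob.IsWt w y ∧ z - Cob.d s y ∈ IC 3 1 (s + 1)
  surj0 : ∀ (w : ℤ) (c : ι → Av (ZMod 3)), w ≤ N → Hom 3 Γ 0 w c → X0 3 (mapM r93 δ) c = 0 →
    ∃ z : Cob Laz 0, Cob.IsWt w z ∧ Cob.d 0 z ∈ IC 3 1 1 ∧ c = red3 (Φ 0 z)
  surj : ∀ (s : ℕ) (w : ℤ) (c : ι → Av (ZMod 3)), s + 1 ≤ S → w ≤ N → Hom 3 Γ (s + 1) w c →
    X0 3 (mapM r93 δ) c = 0 → ∃ (z : Cob Laz (s + 1)) (c' : ι → Av (ZMod 3)), Cob.IsWt w z ∧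
      Cob.d (s + 1) z ∈ IC 3 1 (s + 2) ∧ Hom 3 Γ s w c' ∧
      c = red3 (Φ (s + 1) z) + X0 3 (mapM r93 δ) c'
  lead : ∀ (j : ℕ) (g : ι), 1 ≤ S → 2 * 3 ^ (j + 1) ≤ N →
    (∀ g', Γ.deg g' = 2 → Γ.wt g' = 2 * 3 ^ (j + 1) → g' = g) →
    ∃ ε : ZMod 3, ε ≠ 0 ∧ ∀ y : Cob Laz 2, Cob.IsWt (2 * 3 ^ (j + 1)) y →
      Cob.d 2 y ∈ IC 3 1 3 → ∃ e : CobP 3 1, fP 3 2 y =
        (ε * constantCoeff (red3 (Φ 2 y) g)) • Vale.Agent.P257.H134.bP 3 1 j + dP 1 e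

/-- **Comparison theorem** (block KAP): statement. -/
def CmpStmt : Prop :=
  ∀ (ι : Type) [Fintype ι] [DecidableEq ι] (Γ : Gens ι) (δ : Mat ι (Av (ZMod 9))) (S : ℕ) (N : ℤ),
    HomD 3 Γ δ → SqZero 3 Γ δ N → ExactP 3 Γ (bar 3 r93 δ) S N → Nonempty (Cmp Γ δ S N)

end Vale.Agent.P236D
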