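import Vale.Agent.P236D.Phi
import Vale.Agent.P236D.Spec
import Vale.Agent.P236O.Lift
import Vale.Agent.P236K.BNe
import Vale.Agent.P236H.Brg

/-!
# P236, block DGM: the comparison theorem

* `chC` : chains in characteristic `p`; `adC` : chains of additive laws;
* `cmpStmt : CmpStmt`, `brg : BrgStmt`.
-/

noncomputable section

namespace Vale.Agent.P236D

open Vale.Agent.P251.F Vale.Agent.P236A Vale.Agent.P236B Vale.Agent.P257.H80
  Vale.Agent.P257.H314 Vale.Agent.P257.H93 MvPolynomial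

variable {p : ℕ} [hp : Fact p.Prime] {k : Type} [CommRing k] {n : ℕ}

omit hp in
theorem cast_map {B B' : Type} [CommRing B] [CommRing B'] (φ : B →+* B') (h : (p : B) = 0) :
    (p : B') = 0 := by rw [← map_natCast φ, h, map_zero]

/-- chains in characteristic `p` -/
def chC (p : ℕ) [Fact p.Prime] (k : Type) [CommRing k] : Cls p k where
  mem {_ B} _ _ := (p : B) = 0
  map φ _ h := cast_map φ h
  resF _ _ h := h
  mv _ _ h := h
  scW _ _ h := h
  mk0 _ _ e h := by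
    rw [← map_natCast (Cob.ev e)]
    exact h _ fun B' _ c hc => by rw [map_natCast, hc]

omit hp in
theorem IC_one (s : ℕ) : IC p 1 s = Ideal.span {(p : Cob Laz s)} := by
  rw [IC, Laz.I, Ih, Ideal.map_span]
  congr 1
  ext x
  constructor
  · rintro ⟨_, ⟨i, hi, rfl⟩, rfl⟩
    obtain rfl : i = 0 := by omega
    rw [vv_zero, map_natCast]
    rfl
  · rintro rfl
    exact ⟨_, ⟨0, Nat.one_pos, vv_zero p _⟩, map_natCast _ _⟩

theorem chC_N (red : k →+* ZMod p) {z : Cob Laz n} : z ∈ (chC p k).N n ↔ z ∈ IC p 1 n := by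
  rw [Cls.mem_N', IC_one]
  constructor
  · intro h
    let I : Ideal (Cob Laz n) := Ideal.span {(p : Cob Laz n)}
    let _ : CommRing (Cob Laz n ⧸ I) := Ideal.Quotient.commRing I
    let π : Cob Laz n →+* Cob Laz n ⧸ I := Ideal.Quotient.mk I
    have hB : (p : Cob Laz n ⧸ I) = 0 := by
      rw [← map_natCast π]
      exact Ideal.Quotient.eq_zero_iff_mem.2 (Ideal.mem_span_singleton_self _)
    have : FpA p (Cob Laz n ⧸ I) := ⟨hB⟩
    have h1 := h _ (mk0 p (pLoc_of_cast p hB) ((zm p _).comp red) ((Cob.univ Laz n).map π)) hB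
    rw [res_mk0, Cob.ev_map, Cob.ev_univ] at h1
    exact Ideal.Quotient.eq_zero_iff_mem.1 h1
  · intro h B _ c hc
    obtain ⟨y, rfl⟩ := Ideal.mem_span_singleton.1 h
    rw [map_mul, map_natCast, show (p : B) = 0 from hc, zero_mul]

theorem chC_J {m : ℕ} (red : ZMod m →+* ZMod p) {b : Av (ZMod m)} :
    (C b : W (ZMod m) 0) ∈ (chC p (ZMod m)).J 0 ↔ map red b = 0 := by
  constructor
  · intro h
    have h1 := h _ (mkF (n := 0) (map red) Fin.elim0 fun i => i.elim0)
      (cast_map (C : ZMod p →+* Av (ZMod p)) (ZMod.natCast_self p))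
    rwa [Cob.ev_C] at h1
  · intro h B _ c hc
    have : FpA p B := ⟨hc⟩
    have h1 : c.pt = (eval₂Hom (zm p B) (vc c)).comp (map red) :=
      MvPolynomial.ringHom_ext' (RingHom.ext_zmod _ _) fun i => by simp [vc]
    rw [Cob.ev_C, h1, RingHom.comp_apply, h, map_zero]

omit hp in
theorem law_map_congr {A B : Type} [CommRing A] [CommRing B] {φ : A →+* B} {F G : Law A} :
    F.map φ = G.map φ ↔
      ∀ d, φ (MvPowerSeries.coeff d F.ps - MvPowerSeries.coeff d G.ps) = 0 := by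
  constructor
  · intro h d
    have h1 := congrArg (fun H : Law B => MvPowerSeries.coeff d H.ps) h
    rw [map_sub, sub_eq_zero]
    simpa only [Law.map_ps, MvPowerSeries.coeff_map] using h1
  · intro h
    apply Law.ext_ps
    ext d
    have h1 := h d
    rw [map_sub, sub_eq_zero] at h1
    simpa only [Law.map_ps, MvPowerSeries.coeff_map] using h1

/-- chains of additive laws -/
def IsAd (p : ℕ) {n : ℕ} {B : Type} [CommRing B] (c : Chain (Av k) n B) : Prop :=
  (p : B) = 0 ∧ vc c = (fun _ => 0) ∧ ∀ i, c.g i • addLaw B = addLaw B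

theorem IsAd.res_pt {B : Type} [CommRing B] {c : Chain (Av k) (n + 1) B} (hc : IsAd p c) :
    ((toLaz p c).res Fin.succ).pt = Laz.lift (addLaw B) := by
  change LawRing.act (c.g _) (Laz.lift (hz p (vc c))) = _
  rw [hc.2.1, hz_zero, act_lift_addLaw (hc.2.2 _)]

theorem IsAd.res_g {B : Type} [CommRing B] {c : Chain (Av k) (n + 1) B} (hc : IsAd p c)
    (i : Fin (n + 1)) : ((toLaz p c).res Fin.succ).g i • addLaw B = addLaw B := by
  change (c.g _ * (c.g _)⁻¹) • _ = _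
  rw [mul_smul, inv_smul_eq_iff.2 (hc.2.2 _).symm, hc.2.2]

/-- the class of chains of additive laws -/
def adC (p : ℕ) [Fact p.Prime] (k : Type) [CommRing k] : Cls p k where
  mem c := IsAd p c
  map φ c h := ⟨cast_map φ h.1, funext fun i => (congrArg φ (congrFun h.2.1 i)).trans (map_zero φ),
    fun i => by rw [Chain.map_g, ← map_addLaw φ, ← InvSeries.map_smul, h.2.2]⟩
  resF β c h := ⟨h.1, h.2.1, fun i => by rw [resF_g, h.2.2]⟩
  mv c t h := by
    have h1 := fT_smul p (vc c) t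
    rw [h.2.1, eta_v0 p h.1, hz_zero] at h1
    refine ⟨h.1, by rw [vc_mv, h.2.1, eta_v0 p h.1], fun i => Fin.cases ?_ (fun i => ?_) i⟩
    · rw [Chain.zero, one_smul]
    · rw [mv_g, mul_smul, h.2.1, h1, h.2.2]
  scW c u h := ⟨h.1, by rw [vc_scW, h.2.1]; simp only [mul_zero], fun i => by
    rw [scW_g, mul_smul, mul_smul, Vale.Agent.P257.H93.lin_smul_addLaw, h.2.2,
      lin_inv_smul_addLaw]⟩
  mk0 {n B} _ hB θ e h := by
    have h0 : ∀ {B : Type} [CommRing B] (e : Chain Laz n B),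
        (Laz.univ.map (C : Laz →+* Cob Laz n)).map (Cob.ev e) = Laz.univ.map e.pt := fun e => by
      rw [Law.map_map]
      congr 1
      exact RingHom.ext fun a => Cob.ev_C _ _
    have h0' : ∀ {B : Type} [CommRing B] (e : Chain Laz n B) (i : Fin (n + 1)),
        ((Cob.univ Laz n).g i • addLaw (Cob Laz n)).map (Cob.ev e) = e.g i • addLaw B :=
      fun e i => by rw [InvSeries.map_smul, map_addLaw, ← Chain.map_g, Cob.univ_map_ev]
    have h1 : Laz.univ.map e.pt = hz p fun _ => 0 := by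
      rw [← h0, hz_zero, ← map_addLaw (Cob.ev e), law_map_congr]
      refine fun d => h _ fun B' _ c hc => law_map_congr.1 ?_ d
      rw [h0, hc.res_pt, Laz.univ_map_lift, map_addLaw]
    have h2 : ∀ i, e.g i • addLaw B = addLaw B := fun i => by
      rw [← h0']
      conv_rhs => rw [← map_addLaw (Cob.ev e)]
      rw [law_map_congr]
      refine fun d => h _ fun B' _ c hc => law_map_congr.1 ?_ d
      rw [h0', hc.res_g, map_addLaw]
    refine ⟨?_, by rw [vc_mk0, h1, vF_hz], fun i => Fin.cases ?_ (fun i => ?_) i⟩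
    · rw [← map_natCast (Cob.ev e)]
      exact h _ fun B' _ c hc => by rw [map_natCast, hc.1]
    · rw [Chain.zero, one_smul]
    · rw [mk0_g, h1, cF_hz, inv_one, mul_one, h2]

theorem IsAd.res_eq {B : Type} [CommRing B] {c : Chain (Av k) (n + 1) B} (hc : IsAd p c)
    (g : ℕ → addS B) (hg : ∀ i : Fin (n + 1), c.g i.succ = ((g i : strict B) : InvSeries B)) :
    (toLaz p c).res Fin.succ = mkC (Laz.lift (addLaw B)) n fun k => (g k : strict B) := by
  refine chain_ext ?_ fun i => ?_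
  · rw [hc.res_pt, mkC_pt, act_lift_addLaw (g 0).2]
  · change c.g _ * (c.g _)⁻¹ = _
    rw [hg, hg, mkC_g]
    rfl

/-- a chain of additive laws -/
def mkAd {B : Type} [CommRing B] (θ : k →+* B) (n : ℕ) (g : ℕ → addS B) :
    Chain (Av k) (n + 1) B :=
  mkF (eval₂Hom θ fun _ => 0) (fun i => ((g i : strict B) : InvSeries B)) fun i => (g i).1.2

omit hp in
theorem isAd_mkAd {B : Type} [CommRing B] (hB : (p : B) = 0) (θ : k →+* B) (n : ℕ)
    (g : ℕ → addS B) : IsAd p (mkAd θ n g) :=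
  ⟨hB, funext fun _ => eval₂Hom_X' _ _ _, fun i =>
    Fin.cases (by rw [Chain.zero, one_smul]) (fun i => (g i).2) i⟩

theorem adC_N (red : k →+* ZMod p) {z : Cob Laz n} : z ∈ (adC p k).N n ↔ fP p n z = 0 := by
  rw [Cls.mem_N']
  constructor
  · intro h
    have hc := isAd_mkAd (FpA.cast (p := p)) ((zm p (CobP p n)).comp red) n (gU p n)
    have h1 := evG_fP (p := p) (gU p n) z
    rw [evG_gU, RingHom.id_apply, ← hc.res_eq (gU p n) fun _ => rfl] at h1
    exact h1.trans (h _ _ hc)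
  · intro h B _ c hc
    have : FpA p B := ⟨hc.1⟩
    let g : ℕ → addS B := fun j => if hj : j < n + 1 then
      ⟨⟨c.g (Fin.succ ⟨j, hj⟩), c.strict _⟩, hc.2.2 _⟩ else 1
    have h1 := evG_fP (p := p) g z
    rw [h, map_zero, ← IsAd.res_eq hc g fun i => by simp only [g, dif_pos i.2]] at h1
    exact h1.symm

theorem adC_J {m : ℕ} (red : ZMod m →+* ZMod p) {b : Av (ZMod m)}
    (h : red (constantCoeff b) = 0) : (C b : W (ZMod m) 0) ∈ (adC p (ZMod m)).J 0 := by
  intro B _ c hc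
  have : FpA p B := ⟨hc.1⟩
  have h1 : c.pt = (zm p B).comp (red.comp constantCoeff) :=
    MvPolynomial.ringHom_ext' (RingHom.ext_zmod _ _) fun i => by
      refine (congrFun hc.2.1 i).trans ?_
      simp
  rw [Cob.ev_C, h1, RingHom.comp_apply, RingHom.comp_apply, h, map_zero]

theorem pLoc_nine : PLoc 3 (ZMod 9) := fun m hm => by
  rw [ZMod.isUnit_iff_coprime]
  exact Nat.Coprime.pow_right 2 ((Nat.Prime.coprime_iff_not_dvd Nat.prime_three).2 hm).symm

theorem exists_bP (j : ℕ) : ∃ y : Cob Laz 2, Cob.IsWt (2 * 3 ^ (j + 1)) y ∧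
    fP 3 2 y = Vale.Agent.P257.H134.bP 3 1 j := by
  obtain ⟨t, ht⟩ := T1 3
  refine ⟨_, ?_, P236H.fP_bcls_pow ht j⟩
  have hwt := ((BCocycle 3 (by norm_num) t ht).1).pow (3 ^ j)
  rw [Vale.Agent.P251.I.bcls]
  refine (Cob.wt Laz 2 _).sum_mem fun i hi => (Cob.wt Laz 2 _).zsmul_mem ?_ _
  rw [Finset.mem_Ioo] at hi
  have h1 := (hwt.pow i).cup (hwt.pow (3 - i))
  rwa [← add_mul, ← Nat.cast_add, Nat.add_sub_cancel' hi.2.le,
    show ((3 : ℕ) : ℤ) * (((3 ^ j : ℕ) : ℤ) * ((3 - 1 : ℕ) : ℤ)) = 2 * 3 ^ (j + 1) by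
      push_cast; ring] at h1

variable {ι : Type} [Fintype ι] [DecidableEq ι] {Γ : Gens ι} {δ : Mat ι (Av (ZMod 9))} {S : ℕ}
  {N : ℤ}

omit [DecidableEq ι] in
theorem red3_X0 (c : ι → Av (ZMod 9)) : red3 (X0 3 δ c) = X0 3 (mapM r93 δ) (red3 c) :=
  map_X0 3 r93 δ c

theorem lead_aux (hδ : HomD 3 Γ δ) (hq : SqZero 3 Γ δ N) (K : Contr 3 Γ δ S N) {w : ℕ} {g : ι}
    (hS : 1 ≤ S) (hN : (w : ℤ) ≤ N) (hg : ∀ g', Γ.deg g' = 2 → Γ.wt g' = w → g' = g)
    {y : Cob Laz 2} (hy : Cob.IsWt w y) (hd : dP 2 (fP 3 2 y) = 0)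
    (h : r93 (constantCoeff (Phi 3 δ Γ.g0 2 y g)) = 0) : ∃ e : CobP 3 1, fP 3 2 y = dP 1 e := by
  obtain ⟨e, -, h1⟩ := Phi_inj pLoc_nine hδ hq hN K (adC 3 _) hS hy
    ((adC_N r93).2 (by rw [fP_d, hd])) (c := 0) ((hom_iff 3 Γ).2 (zero_mem _)) fun g' => by
      apply adC_J r93
      rw [← X0H_apply, map_zero, Pi.zero_apply, sub_zero]
      by_cases e : g' = g
      · rwa [e]
      · have h2 := Phi_hom hδ hy g'
        by_cases h3 : Γ.deg g' = 2
        · have h4 : coeff 0 (Phi 3 δ Γ.g0 2 y g') = 0 := by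
            by_contra h4
            have h5 := h2.1 h4
            rw [map_zero] at h5
            exact e (hg g' h3 (by omega))
          rw [constantCoeff_eq, h4, map_zero]
        · rw [h2.2 h3, map_zero, map_zero]
  have h2 := (adC_N r93).1 h1
  rw [map_sub, sub_eq_zero, fP_d] at h2
  exact ⟨_, h2⟩

/-- The comparison map. -/
def cmpOf (hδ : HomD 3 Γ δ) (hq : SqZero 3 Γ δ N) (K : Contr 3 Γ δ S N) : Cmp Γ δ S N where
  Φ := Phi 3 δ Γ.g0
  hom s w z hz := Phi_hom hδ hz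
  d s w z hw hz := Phi_d pLoc_nine hδ hq hw hz
  smul s a z := Phi_smul 3 δ Γ.g0 a z
  one := Phi_one 3 δ Γ.g0
  inj0 w z _ hd h := (chC_N r93).1 (Phi_inj0 pLoc_nine hδ hq le_rfl K (chC 3 _) ((chC_N r93).2 hd)
    fun g => (chC_J r93).2 (congrFun h g))
  inj s w z c0 hs hw hz hd hc0 h := by
    obtain ⟨c, hc, rfl⟩ := P236H.exists_lift hc0
    obtain ⟨y, hy, h1⟩ := Phi_inj pLoc_nine hδ hq hw K (chC 3 _) hs hz ((chC_N r93).2 hd) hc
      fun g => (chC_J r93).2 (by
        rw [map_sub, sub_eq_zero]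
        exact (congrFun h g).trans (congrFun (red3_X0 c) g).symm)
    exact ⟨y, hy, (chC_N r93).1 h1⟩
  surj0 w c0 hw hc0 h := by
    obtain ⟨c, hc, rfl⟩ := P236H.exists_lift hc0
    obtain ⟨z, hz, h1, h2⟩ := Phi_surj0 pLoc_nine hδ hq hw K (chC 3 _) hc
      fun g => (chC_J r93).2 ((congrFun (red3_X0 c) g).trans (congrFun h g))
    refine ⟨z, hz, (chC_N r93).1 h1, funext fun g => ?_⟩
    have h3 := (chC_J r93).1 (h2 g)
    rw [map_sub, sub_eq_zero] at h3
    exact h3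
  surj s w c0 hs hw hc0 h := by
    obtain ⟨c, hc, rfl⟩ := P236H.exists_lift hc0
    obtain ⟨z, c', hz, h1, hc', h2⟩ := Phi_surj pLoc_nine hδ hq hw K (chC 3 _) hs hc
      fun g => (chC_J r93).2 ((congrFun (red3_X0 c) g).trans (congrFun h g))
    refine ⟨z, red3 c', hz, (chC_N r93).1 h1, P236H.Hom.rc hc', funext fun g => ?_⟩
    have h3 := (chC_J r93).1 (h2 g)
    rw [map_sub, map_sub, sub_sub, sub_eq_zero] at h3
    rw [← red3_X0]
    exact h3
  lead j g hS hN hg := by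
    obtain ⟨b, hb, hb'⟩ := exists_bP j
    have hcast : ((2 * 3 ^ (j + 1) : ℕ) : ℤ) = 2 * 3 ^ (j + 1) := by push_cast; rfl
    have hdb : dP 2 (fP 3 2 b) = 0 := by rw [hb', Vale.Agent.P257.H254.dP_b1]
    have key : ∀ y : Cob Laz 2, Cob.IsWt (2 * 3 ^ (j + 1)) y → dP 2 (fP 3 2 y) = 0 →
        r93 (constantCoeff (Phi 3 δ Γ.g0 2 y g)) = 0 → ∃ e : CobP 3 1, fP 3 2 y = dP 1 e :=
      fun y hy hd h => lead_aux hδ hq K hS (hcast.le.trans hN) hg (by rwa [hcast]) hd h
    set a := r93 (constantCoeff (Phi 3 δ Γ.g0 2 b g)) with ha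
    have ha0 : a ≠ 0 := fun h => by
      obtain ⟨e, he⟩ := key b hb hdb h
      exact P236K.bne j ⟨e, he.symm.trans hb'⟩
    refine ⟨a⁻¹, inv_ne_zero ha0, fun y hy hd => ?_⟩
    have hc : constantCoeff (red3 (Phi 3 δ Γ.g0 2 y) g) =
        r93 (constantCoeff (Phi 3 δ Γ.g0 2 y g)) := constantCoeff_map _ _
    rw [hc]
    obtain ⟨c, hc'⟩ := ZMod.intCast_surjective (a⁻¹ * r93 (constantCoeff (Phi 3 δ Γ.g0 2 y g)))
    obtain ⟨e, he⟩ := key (y - c • b) ((Cob.wt Laz 2 _).sub_mem hy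
        ((Cob.wt Laz 2 _).zsmul_mem hb c))
      (by rw [map_sub, map_zsmul, map_sub, map_zsmul, hdb, smul_zero, sub_zero, ← fP_d,
        fP_IC hd])
      (by rw [map_sub, map_zsmul, Pi.sub_apply, Pi.smul_apply, map_sub, map_zsmul, map_sub,
        map_zsmul, ← ha, zsmul_eq_mul, hc', mul_right_comm, inv_mul_cancel₀ ha0, one_mul,
        sub_self])
    refine ⟨e, ?_⟩
    rw [← hc', Int.cast_smul_eq_zsmul, ← he, ← hb', map_sub, map_zsmul, add_sub_cancel]

/-- **Comparison theorem.** -/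
theorem cmpStmt : CmpStmt := fun ι _ _ Γ δ S N hδ hq hE =>
  (P236O.contrStmt 3 ι Γ 9 1 (by norm_num) r93 δ S N hδ hq hE).elim fun K => ⟨cmpOf hδ hq K⟩

/-- Tables on the small complex give tables on the cobar complex. -/
theorem brg : P236T.BrgStmt := P236H.brg_of cmpStmt

end Vale.Agent.P236D
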