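import Vale.Agent.P236D.Cart
import Vale.Agent.P236D.DC

/-!
# P236, block DGM: the comparison map

The double complex `ι → W k a`, the map `Phi`, and exactness of the columns modulo a class of
chains.
-/

noncomputable section

namespace Vale.Agent.P236D

open Vale.Agent.P251.F Vale.Agent.P236A Vale.Agent.P236B Vale.Agent.P257.H80 MvPolynomial

variable (p : ℕ) [hp : Fact p.Prime] {k : Type} [CommRing k] {ι : Type} [Fintype ι]
  [DecidableEq ι] {n : ℕ}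

/-- the vertical differential -/
def XW (δ : Mat ι (Av k)) (a : ℕ) : (ι → W k a) →+ (ι → W k a) :=
  AddMonoidHom.mk' (fun u g' => ∑ g, actW p (δ g g') a (u g)) fun u u' => by
    funext g'
    simp only [Pi.add_apply, map_add, Finset.sum_add_distrib]

omit [DecidableEq ι] in
theorem XW_apply (δ : Mat ι (Av k)) (a : ℕ) (u : ι → W k a) (g' : ι) :
    XW p δ a u g' = ∑ g, actW p (δ g g') a (u g) := rfl

/-- the contraction -/
def hK (ι : Type) (k : Type) [CommRing k] (a : ℕ) : (ι → W k (a + 1)) →+ (ι → W k a) :=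
  (hW a).toAddMonoidHom.compLeft ι

/-- the horizontal differential -/
def dK (ι : Type) (k : Type) [CommRing k] (a : ℕ) : (ι → W k a) →+ (ι → W k (a + 1)) :=
  (dW a).compLeft ι

variable (k) in
/-- the augmentation -/
def iK (g0 : ι) (n : ℕ) : Cob Laz n →+ (ι → W k (n + 1)) :=
  (AddMonoidHom.single (fun _ => W k (n + 1)) g0).comp (iW p k n).toAddMonoidHom

omit [Fintype ι] in
theorem iK_apply (g0 : ι) (z : Cob Laz n) : iK p k g0 n z = Pi.single g0 (iW p k n z) := rfl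

omit hp [Fintype ι] in
theorem map_single {A B F : Type} [Zero A] [Zero B] [FunLike F A B] [ZeroHomClass F A B] (f : F)
    (g0 g : ι) (x : A) : f ((Pi.single g0 x : ι → A) g) = (Pi.single g0 (f x) : ι → B) g := by
  by_cases h : g = g0
  · subst h
    rw [Pi.single_eq_same, Pi.single_eq_same]
  · rw [Pi.single_eq_of_ne h, Pi.single_eq_of_ne h, map_zero]

/-- the zigzag -/
def ZW (δ : Mat ι (Av k)) (a : ℕ) : (ι → W k a) →+ (ι → W k 0) :=
  DC.zz (K := fun a => ι → W k a) (hK ι k) (XW p δ) a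

/-- the comparison map with values in `W k 0` -/
def PhiW (δ : Mat ι (Av k)) (g0 : ι) (n : ℕ) : Cob Laz n →+ (ι → W k 0) :=
  (ZW p δ n).comp ((hK ι k n).comp (iK p k g0 n))

/-- the comparison map -/
def Phi (δ : Mat ι (Av k)) (g0 : ι) (n : ℕ) : Cob Laz n →+ (ι → Av k) :=
  ((constantCoeff : W k 0 →+* Av k).toAddMonoidHom.compLeft ι).comp (PhiW p δ g0 n)

theorem Phi_apply (δ : Mat ι (Av k)) (g0 : ι) (z : Cob Laz n) (g : ι) :
    Phi p δ g0 n z g = constantCoeff (PhiW p δ g0 n z g) := rfl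

omit hp [Fintype ι] [DecidableEq ι] in
theorem C_constantCoeff (x : W k 0) : C (constantCoeff x) = x := (eq_C_of_isEmpty x).symm

theorem C_Phi (δ : Mat ι (Av k)) (g0 : ι) (z : Cob Laz n) :
    (fun g => C (Phi p δ g0 n z g)) = PhiW p δ g0 n z := funext fun _ => C_constantCoeff _

omit [DecidableEq ι] in
theorem XW_C (δ : Mat ι (Av k)) (a : ℕ) (c : ι → Av k) :
    XW p δ a (fun g => C (c g)) = fun g => C (X0 p δ c g) := by
  funext g'
  simp only [XW_apply, actW_C, X0, map_sum]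

variable (k) in
/-- functions of the first vertex -/
def eW : ∀ n : ℕ, Laz → W k n
  | 0, a => C (Laz.lift (hz p (X : ℕ → Av k)) a)
  | n + 1, a => iW p k n (C a)

theorem hW_eW (a : Laz) : hW n (eW p k (n + 1) a) = eW p k n a := by
  cases n with
  | zero => exact hW_iW_C_zero p a
  | succ n => exact hW_iW_C p a

omit [Fintype ι] [DecidableEq ι] in
theorem hK_smul (a : Laz) (u : ι → W k (n + 1)) :
    hK ι k n (eW p k (n + 1) a • u) = eW p k n a • hK ι k n u := by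
  funext g
  change hW n (eW p k (n + 1) a * u g) = eW p k n a * hW n (u g)
  rw [map_mul, hW_eW]

omit [DecidableEq ι] in
theorem ZW_smul (δ : Mat ι (Av k)) (a : Laz) (n : ℕ) : ∀ u : ι → W k n,
    ZW p δ n (eW p k n a • u) = eW p k 0 a • ZW p δ n u := by
  induction n with
  | zero => exact fun _ => rfl
  | succ n ih =>
    intro u
    have h : XW p δ (n + 1) (eW p k (n + 1) a • u) = eW p k (n + 1) a • XW p δ (n + 1) u := by
      funext g'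
      simp only [XW_apply, Pi.smul_apply, smul_eq_mul, eW, actW_iW_mul, Finset.mul_sum]
    change ZW p δ n (hK ι k n (XW p δ (n + 1) _)) = _ • ZW p δ n (hK ι k n (XW p δ (n + 1) _))
    rw [h, hK_smul, ih]

theorem Phi_smul (δ : Mat ι (Av k)) (g0 : ι) (a : Laz) (z : Cob Laz n) :
    Phi p δ g0 n (C a * z) = Laz.lift (hz p (X : ℕ → Av k)) a • Phi p δ g0 n z := by
  have h : iK p k g0 n (C a * z) = eW p k (n + 1) a • iK p k g0 n z := by
    rw [iK_apply, iK_apply, map_mul, ← Pi.single_smul, smul_eq_mul, eW]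
  funext g
  rw [Phi_apply, Pi.smul_apply, Phi_apply]
  change constantCoeff (ZW p δ n (hK ι k n (iK p k g0 n _)) g) =
    _ • constantCoeff (ZW p δ n (hK ι k n (iK p k g0 n _)) g)
  rw [h, hK_smul, ZW_smul, Pi.smul_apply, smul_eq_mul, map_mul, eW, constantCoeff_C, smul_eq_mul]

theorem Phi_one (δ : Mat ι (Av k)) (g0 : ι) : Phi p δ g0 0 1 = Pi.single g0 1 := by
  funext g
  change constantCoeff (hW 0 (iK p k g0 0 1 g)) = _
  rw [iK_apply, map_one]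
  by_cases h : g = g0
  · subst h
    rw [Pi.single_eq_same, Pi.single_eq_same, map_one, map_one]
  · rw [Pi.single_eq_of_ne h, Pi.single_eq_of_ne h, map_zero, map_zero]

variable {p} {Γ : Gens ι} {δ : Mat ι (Av k)}

omit [DecidableEq ι] in
theorem XW_mem (hδ : HomD p Γ δ) {a s : ℕ} {w : ℤ} {u : ι → W k a}
    (hu : u ∈ HomG Γ (gW p k a) s w) : XW p δ a u ∈ HomG Γ (gW p k a) (s + 1) w := fun g' => by
  rw [XW_apply]
  refine ⟨sum_mem fun g _ => Grd.cast _ (actW_mem p (hδ.mem p Γ g g') (hu g).1) (by ring),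
    fun h => Finset.sum_eq_zero fun g _ => ?_⟩
  by_cases hg : Γ.deg g = s
  · rw [show δ g g' = fun _ => 0 from funext (hδ.deg g g' · (by rwa [hg]))]
    apply Cob.ext_ev
    intro B _ c
    simp only [ev_actW, map_zero, lin_zero]
  · rw [(hu g).2 hg, map_zero]

omit hp [Fintype ι] [DecidableEq ι] in
theorem hK_mem {a s : ℕ} {w : ℤ} {u : ι → W k (a + 1)} (hu : u ∈ HomG Γ (gW p k (a + 1)) s w) :
    hK ι k a u ∈ HomG Γ (gW p k a) s w := HomG.map Γ (wt_mapF p (rot a)) hu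

omit [Fintype ι] in
theorem iK_mem {w : ℤ} {z : Cob Laz n} (hz : Cob.IsWt w z) :
    iK p k Γ.g0 n z ∈ HomG Γ (gW p k (n + 1)) 0 w := by
  have h := single_mem Γ Γ.g0 (iW_mem p (k := k) hz)
  rwa [Γ.deg_g0, Γ.wt_g0, Nat.cast_zero, add_zero] at h

omit [DecidableEq ι] in
theorem ZW_mem (hδ : HomD p Γ δ) {w : ℤ} (a : ℕ) : ∀ (s : ℕ) (u : ι → W k a),
    u ∈ HomG Γ (gW p k a) s w → ZW p δ a u ∈ HomG Γ (gW p k 0) (s + a) w := by
  induction a with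
  | zero => exact fun _ _ h => h
  | succ a ih =>
    intro s u hu
    have h := ih _ _ (hK_mem (XW_mem hδ hu))
    rwa [add_assoc, add_comm 1 a] at h

omit hp [Fintype ι] [DecidableEq ι] in
theorem hom_iff_C {s : ℕ} {w : ℤ} {c : ι → Av k} :
    Hom p Γ s w c ↔ (fun g => (C (c g) : W k 0)) ∈ HomG Γ (gW p k 0) s w :=
  ⟨fun h => HomG.map Γ (wt_C p) ((hom_iff p Γ).1 h), fun h g =>
    ⟨isWH_of_C p (h g).1, fun hg => C_injective _ _ (((h g).2 hg).trans (map_zero _).symm)⟩⟩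

theorem Phi_hom (hδ : HomD p Γ δ) {w : ℤ} {z : Cob Laz n} (hz : Cob.IsWt w z) :
    Hom p Γ n w (Phi p δ Γ.g0 n z) := by
  rw [hom_iff_C, C_Phi]
  have h := ZW_mem hδ n 0 _ (hK_mem (iK_mem (k := k) (Γ := Γ) hz))
  rwa [zero_add] at h

/-- the class of all chains -/
def allC (p : ℕ) [Fact p.Prime] (k : Type) [CommRing k] : Cls p k where
  mem _ := True
  map _ _ _ := trivial
  resF _ _ _ := trivial
  mv _ _ _ := trivial
  scW _ _ _ := trivial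
  mk0 _ _ _ _ := trivial

theorem allC_J {x : W k n} (h : x ∈ (allC p k).J n) : x = 0 := by
  have h1 := h _ (Cob.univ _ _) trivial
  rwa [Cob.ev_univ] at h1

section ZM

variable {m : ℕ} (hk : PLoc p (ZMod m)) {δ : Mat ι (Av (ZMod m))}

omit [DecidableEq ι] in
theorem Θ_XW (𝒞 : Cls p (ZMod m)) (u : ι → W (ZMod m) (n + 1)) :
    (fun g => 𝒞.Θ hk n (XW p δ (n + 1) u g)) =
      XB p (𝒞.cQ hk n).pt δ fun g => 𝒞.Θ hk n (u g) := by
  funext g'
  simp only [XW_apply, XB_apply, map_sum, Cls.Θ_actW]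

/-- the double complex in weight `w` -/
def dc (hδ : HomD p Γ δ) {N : ℤ} (hq : SqZero p Γ δ N) {w : ℤ} (hw : w ≤ N) :
    DC (fun a => ι → W (ZMod m) a) (fun n => Cob Laz n) where
  P a s := HomG Γ (gW p (ZMod m) a) s w
  Q n := Cob.wt Laz n w
  d := dK ι (ZMod m)
  h := hK ι (ZMod m)
  X := XW p δ
  i := iK p (ZMod m) Γ.g0
  dL := Cob.d
  d_P a s u hu g := ⟨dW_mem p (hu g).1, fun h => (congrArg (dW a) ((hu g).2 h)).trans (map_zero _)⟩
  h_P a s u hu := hK_mem hu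
  X_P a s u hu := XW_mem hδ hu
  i_P n z hz := iK_mem hz
  hd0 u := funext fun g => hW_dW_zero (u g)
  hd a u := funext fun g => hW_dW (u g)
  dd a u := funext fun g => dW_dW (u g)
  Xd a u := by
    funext g'
    change ∑ g, actW p (δ g g') (a + 1) (dW a (u g)) = dW a (∑ g, actW p (δ g g') a (u g))
    simp only [actW_dW, map_sum]
  XX a s u hu := by
    funext g
    refine allC_J (((allC p _).Θ_eq_zero hk).1 ?_)
    have h := XB_XB_zero p Γ (allC p _).nonNeg_gQ ((allC p _).wt_cQ hk) hq hw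
      (HomG.map Γ ((allC p _).wt_Θ hk) hu)
    rw [← Θ_XW, ← Θ_XW] at h
    exact congrFun h g
  di n z := by
    funext g
    change dW (n + 1) (iK p _ Γ.g0 n z g) = _
    rw [iK_apply, iK_apply, map_single, dW_iW]
  Xi n z := by
    funext g'
    rw [XW_apply, Finset.sum_eq_single Γ.g0, iK_apply, Pi.single_eq_same,
      ← mul_one (iW p _ n z), actW_iW_mul, ← map_one C, actW_C, act0_one, hδ.unit, map_zero,
      mul_zero, Pi.zero_apply]
    · intro g _ h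
      rw [iK_apply, Pi.single_eq_of_ne h, map_zero]
    · intro h
      exact absurd (Finset.mem_univ _) h

include hk in
theorem Phi_d (hδ : HomD p Γ δ) {N : ℤ} (hq : SqZero p Γ δ N) {w : ℤ} (hw : w ≤ N)
    {z : Cob Laz n} (hz : Cob.IsWt w z) :
    Phi p δ Γ.g0 (n + 1) (Cob.d n z) = X0 p δ (Phi p δ Γ.g0 n z) := by
  have h : PhiW p δ Γ.g0 (n + 1) (Cob.d n z) = XW p δ 0 (PhiW p δ Γ.g0 n z) :=
    (dc hk hδ hq hw).φ_d hz
  rw [← C_Phi, ← C_Phi, XW_C] at h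
  exact funext fun g => C_injective _ _ (congrFun h g)

/-- vectors of functions vanishing on a class -/
def JK (ι : Type) (𝒞 : Cls p k) (a : ℕ) : AddSubgroup (ι → W k a) :=
  AddSubgroup.pi Set.univ fun _ => (𝒞.J a).toAddSubgroup

omit [Fintype ι] [DecidableEq ι] in
theorem mem_JK {𝒞 : Cls p k} {a : ℕ} {u : ι → W k a} : u ∈ JK ι 𝒞 a ↔ ∀ g, u g ∈ 𝒞.J a :=
  ⟨fun h g => h g trivial, fun h g _ => h g⟩

omit [Fintype ι] in
theorem iK_mem_JK {𝒞 : Cls p k} {g0 : ι} {z : Cob Laz n} :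
    iK p k g0 n z ∈ JK ι 𝒞 (n + 1) ↔ z ∈ 𝒞.N n := by
  rw [mem_JK, iK_apply]
  refine ⟨fun h => ?_, fun h g => ?_⟩
  · have h1 := h g0
    rwa [Pi.single_eq_same] at h1
  · by_cases e : g = g0
    · subst e
      rwa [Pi.single_eq_same]
    · rw [Pi.single_eq_of_ne e]
      exact zero_mem _

include hk in
theorem col_aux {N : ℤ} {w : ℤ} (hw : w ≤ N) {S : ℕ} (K : Contr p Γ δ S N) (𝒞 : Cls p (ZMod m))
    {a s : ℕ} (hs : s ≤ S) {u : ι → W (ZMod m) (a + 1)} (hu : u ∈ HomG Γ (gW p _ (a + 1)) s w)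
    (hX : XW p δ (a + 1) u ∈ JK ι 𝒞 (a + 1)) :
    ∃ (v : ι → W (ZMod m) (a + 1)) (z : Cob Laz a), v ∈ HomG Γ (gW p _ (a + 1)) (s - 1) w ∧
      Cob.IsWt w z ∧ (s = 0 → u - iK p _ Γ.g0 a z ∈ JK ι 𝒞 (a + 1)) ∧
      (s ≠ 0 → u - XW p δ (a + 1) v ∈ JK ι 𝒞 (a + 1)) := by
  have h0 : XB p (𝒞.cQ hk a).pt δ (fun g => 𝒞.Θ hk a (u g)) = 0 := by
    rw [← Θ_XW]
    funext g
    rw [Pi.zero_apply, 𝒞.Θ_eq_zero hk]
    exact mem_JK.1 hX g
  have hu' : (fun g => 𝒞.Θ hk a (u g)) ∈ HomG Γ ((𝒞.gQ a).poly (wz p)) s w :=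
    HomG.map Γ (𝒞.wt_Θ hk) hu
  obtain ⟨y, b, hy, hb, h1, h2, h3⟩ := contr_bc K 𝒞.nonNeg_gQ (𝒞.wt_cQ hk) hs hw hu' h0
  obtain ⟨z, hz, hzb⟩ := hb
  have hzb' : 𝒞.mkQ a z = b := hzb
  have h4 : ∀ g, ∃ x, (x ∈ (gW p (ZMod m) (a + 1)).G (w - Γ.wt g) ∧
      (Γ.deg g ≠ s - 1 → x = 0)) ∧ 𝒞.Θ hk a x = y g := fun g => by
    by_cases hg : Γ.deg g = s - 1
    · obtain ⟨x, hx, e⟩ := 𝒞.exists_Θ hk (hy g).1
      exact ⟨x, ⟨hx, fun h => absurd hg h⟩, e⟩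
    · exact ⟨0, ⟨zero_mem _, fun _ => rfl⟩, by rw [map_zero, (hy g).2 hg]⟩
  choose v hv hv' using h4
  refine ⟨v, z, hv, hz, fun e => mem_JK.2 fun g => (𝒞.Θ_eq_zero hk).1 ?_,
    fun e => mem_JK.2 fun g => (𝒞.Θ_eq_zero hk).1 ?_⟩
  · rw [h1 e, map_zero, zero_add] at h3
    rw [Pi.sub_apply, map_sub, congrFun h3 g, iK_apply, map_single, Cls.Θ_iW, hzb', sub_self]
  · rw [h2 e, map_zero, Pi.single_zero, add_zero] at h3
    rw [Pi.sub_apply, map_sub, congrFun h3 g, congrFun (Θ_XW hk 𝒞 v) g, funext hv', sub_self]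

/-- **The columns are exact.** -/
theorem col (hδ : HomD p Γ δ) {N : ℤ} (hq : SqZero p Γ δ N) {w : ℤ} (hw : w ≤ N) {S : ℕ}
    (K : Contr p Γ δ S N) (𝒞 : Cls p (ZMod m)) : (dc hk hδ hq hw).Col (JK ι 𝒞) S where
  d_J a u hu := mem_JK.2 fun g => 𝒞.dW_J (mem_JK.1 hu g)
  h_J a u hu := mem_JK.2 fun g => 𝒞.mapF_J _ (mem_JK.1 hu g)
  X_J a u hu := mem_JK.2 fun g' => sum_mem fun g _ => 𝒞.actW_J _ (mem_JK.1 hu g)
  zero a u hu hX := by
    obtain ⟨v, z, -, hz, h, -⟩ := col_aux hk hw K 𝒞 (Nat.zero_le S) hu hX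
    exact ⟨z, hz, h rfl⟩
  succ a s u hs hu hX := by
    obtain ⟨v, z, hv, -, -, h⟩ := col_aux hk hw K 𝒞 hs hu hX
    exact ⟨v, hv, h (Nat.succ_ne_zero s)⟩

variable (hδ : HomD p Γ δ) {N : ℤ} (hq : SqZero p Γ δ N) {w : ℤ} (hw : w ≤ N) {S : ℕ}
  (K : Contr p Γ δ S N) (𝒞 : Cls p (ZMod m))

include hk hδ hq hw K

/-- injectivity on cohomology modulo a class -/
theorem Phi_inj (hn : n ≤ S) {z : Cob Laz (n + 1)} (hz : Cob.IsWt w z)
    (hd : Cob.d (n + 1) z ∈ 𝒞.N (n + 2)) {c : ι → Av (ZMod m)} (hc : Hom p Γ n w c)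
    (h : ∀ g, (C (Phi p δ Γ.g0 (n + 1) z g - X0 p δ c g) : W (ZMod m) 0) ∈ 𝒞.J 0) :
    ∃ y : Cob Laz n, Cob.IsWt w y ∧ z - Cob.d n y ∈ 𝒞.N (n + 1) := by
  obtain ⟨y, hy, h1⟩ := (col hk hδ hq hw K 𝒞).inj hn hz (iK_mem_JK.2 hd) (hom_iff_C.1 hc)
    (mem_JK.2 fun g => by
      have h2 := h g
      rwa [map_sub, congrFun (C_Phi p δ Γ.g0 z) g, ← congrFun (XW_C p δ 0 c) g] at h2)
  exact ⟨y, hy, iK_mem_JK.1 h1⟩

theorem Phi_inj0 {z : Cob Laz 0} (hd : Cob.d 0 z ∈ 𝒞.N 1)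
    (h : ∀ g, (C (Phi p δ Γ.g0 0 z g) : W (ZMod m) 0) ∈ 𝒞.J 0) : z ∈ 𝒞.N 0 :=
  iK_mem_JK.1 ((col hk hδ hq hw K 𝒞).inj0 (iK_mem_JK.2 hd) (mem_JK.2 fun g => by
    have h2 := h g
    rwa [congrFun (C_Phi p δ Γ.g0 z) g] at h2))

/-- surjectivity on cohomology modulo a class -/
theorem Phi_surj (hn : n + 1 ≤ S) {c : ι → Av (ZMod m)} (hc : Hom p Γ (n + 1) w c)
    (hX : ∀ g, (C (X0 p δ c g) : W (ZMod m) 0) ∈ 𝒞.J 0) :
    ∃ (z : Cob Laz (n + 1)) (c' : ι → Av (ZMod m)), Cob.IsWt w z ∧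
      Cob.d (n + 1) z ∈ 𝒞.N (n + 2) ∧ Hom p Γ n w c' ∧
      ∀ g, (C (c g - Phi p δ Γ.g0 (n + 1) z g - X0 p δ c' g) : W (ZMod m) 0) ∈ 𝒞.J 0 := by
  obtain ⟨z, hz, h1, u, hu, h2⟩ := (col hk hδ hq hw K 𝒞).surj hn (hom_iff_C.1 hc)
    (mem_JK.2 fun g => by
      have h2 := hX g
      rwa [← congrFun (XW_C p δ 0 c) g] at h2)
  obtain ⟨c', rfl⟩ : ∃ c' : ι → Av (ZMod m), u = fun g => C (c' g) :=
    ⟨fun g => constantCoeff (u g), funext fun g => (C_constantCoeff _).symm⟩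
  refine ⟨z, c', hz, iK_mem_JK.1 h1, hom_iff_C.2 hu, fun g => ?_⟩
  rw [map_sub, map_sub, congrFun (C_Phi p δ Γ.g0 z) g, ← congrFun (XW_C p δ 0 c') g]
  exact mem_JK.1 h2 g

theorem Phi_surj0 {c : ι → Av (ZMod m)} (hc : Hom p Γ 0 w c)
    (hX : ∀ g, (C (X0 p δ c g) : W (ZMod m) 0) ∈ 𝒞.J 0) :
    ∃ z : Cob Laz 0, Cob.IsWt w z ∧ Cob.d 0 z ∈ 𝒞.N 1 ∧
      ∀ g, (C (c g - Phi p δ Γ.g0 0 z g) : W (ZMod m) 0) ∈ 𝒞.J 0 := by
  obtain ⟨z, hz, h1, h2⟩ := (col hk hδ hq hw K 𝒞).surj0 (hom_iff_C.1 hc)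
    (mem_JK.2 fun g => by
      have h2 := hX g
      rwa [← congrFun (XW_C p δ 0 c) g] at h2)
  refine ⟨z, hz, iK_mem_JK.1 h1, fun g => ?_⟩
  rw [map_sub, congrFun (C_Phi p δ Γ.g0 z) g]
  exact mem_JK.1 h2 g

end ZM

end Vale.Agent.P236D
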