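import Vale.Agent.P236D.W
import Vale.Agent.P236H.Alg

/-!
# P236, block ORD: typical chains and primitive elements

* `E1 p v t`, `E2 p v t t'` : evaluation of cochains at chains of Hazewinkel laws;
* `prim` : the homogeneous `1`-cocycles of the dual reduced powers are the `c t_1 ^ n`.
-/

noncomputable section

namespace Vale.Agent.P236D

open Vale.Agent.P251.F Vale.Agent.P236A Vale.Agent.P236B Vale.Agent.P257.H93 MvPolynomial
open Vale.Agent.P257.H134 (comp)

variable (p : ℕ) [hp : Fact p.Prime] {B B' : Type} [CommRing B] [CommRing B']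

/-- the arrow with coordinates `t` -/
def ch1 (v t : ℕ → B) : Chain Laz 1 B :=
  mkF (Laz.lift (hz p v)) (fun _ => (fT p v t)⁻¹) fun _ => inv_mem (fT_mem p v t)

/-- two arrows -/
def ch2 (v t t' : ℕ → B) : Chain Laz 2 B :=
  mkF (Laz.lift (hz p v)) (fun i => (fT p v (![t, del p v t t'] i))⁻¹)
    fun _ => inv_mem (fT_mem p v _)

/-- evaluation of `1`-cochains -/
def E1 (v t : ℕ → B) : Cob Laz 1 →+* B := Cob.ev (ch1 p v t)

/-- evaluation of `2`-cochains -/
def E2 (v t t' : ℕ → B) : Cob Laz 2 →+* B := Cob.ev (ch2 p v t t')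

theorem map_lift_hz (φ : B →+* B') (v : ℕ → B) :
    φ.comp (Laz.lift (hz p v)) = Laz.lift (hz p fun i => φ (v i)) := by
  rw [Laz.comp_lift, map_hz]

theorem map_E1 (φ : B →+* B') (v t : ℕ → B) (z : Cob Laz 1) :
    φ (E1 p v t z) = E1 p (fun i => φ (v i)) (fun i => φ (t i)) z := by
  rw [E1, ← Cob.ev_map, E1]
  congr 2
  refine chain_ext (map_lift_hz p φ v) fun i => ?_
  rw [Chain.map_g]
  exact (map_inv (InvSeries.map φ) _).trans (congrArg _ (map_fT p φ v t))

theorem map_E2 (φ : B →+* B') (v t t' : ℕ → B) (z : Cob Laz 2) :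
    φ (E2 p v t t' z) = E2 p (fun i => φ (v i)) (fun i => φ (t i)) (fun i => φ (t' i)) z := by
  rw [E2, ← Cob.ev_map, E2]
  congr 2
  refine chain_ext (map_lift_hz p φ v) fun i => ?_
  rw [Chain.map_g]
  refine (map_inv (InvSeries.map φ) _).trans (congrArg _ ((map_fT p φ v _).trans ?_))
  fin_cases i
  · rfl
  · exact congrArg _ (funext fun i => map_del p φ v t t' i)

theorem E2_d (v t t' : ℕ → B) (z : Cob Laz 1) : E2 p v t t' (Cob.d 1 z) =
    E1 p (eta p v t) t' z - E1 p v (del p v t t') z + E1 p v t z := by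
  have h0 : (ch2 p v t t').res (Fin.succAbove 0) = ch1 p (eta p v t) t' := by
    refine chain_ext ?_ fun i => ?_
    · change LawRing.act (fT p v t)⁻¹ (Laz.lift _) = Laz.lift _
      rw [Laz.act_eq, Laz.univ_map_lift, eta_spec]
    · obtain rfl : i = 0 := Subsingleton.elim _ _
      change (fT p v (del p v t t'))⁻¹ * ((fT p v t)⁻¹)⁻¹ = (fT p _ t')⁻¹
      rw [← del_spec]
      group
  have h1 : (ch2 p v t t').res (Fin.succAbove 1) = ch1 p v (del p v t t') := by
    refine chain_ext (LawRing.act_one _) fun i => ?_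
    obtain rfl : i = 0 := Subsingleton.elim _ _
    change (fT p v (del p v t t'))⁻¹ * 1⁻¹ = (fT p _ _)⁻¹
    rw [inv_one, mul_one]
  have h2 : (ch2 p v t t').res (Fin.succAbove 2) = ch1 p v t := by
    refine chain_ext (LawRing.act_one _) fun i => ?_
    obtain rfl : i = 0 := Subsingleton.elim _ _
    change (fT p v t)⁻¹ * 1⁻¹ = (fT p _ _)⁻¹
    rw [inv_one, mul_one]
  rw [E2, Cob.ev_d, Fin.sum_univ_three, h0, h1, h2]
  simp only [Fin.val_zero, pow_zero, one_smul, Fin.val_one, pow_one, neg_smul, Fin.val_two,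
    even_two, Even.neg_pow, one_pow, ← sub_eq_add_neg]
  rfl

theorem E1_mem (𝒢 : Grd B) {v t : ℕ → B} (hv : ∀ i, v i ∈ 𝒢.G (wz p i))
    (ht : ∀ i, t i ∈ 𝒢.G (wz p i)) {w : ℤ} {z : Cob Laz 1} (hz : Cob.IsWt w z) :
    E1 p v t z ∈ 𝒢.G w := by
  have h0 : ∀ {B : Type} [CommRing B] (v t : ℕ → B), E1 p v t z = ev2 v t
      (E1 p (fun i => X (Sum.inl i)) (fun i => X (Sum.inr i)) z) := fun v t => by
    simp only [map_E1, ev2_inl, ev2_inr]
  rw [h0]
  refine 𝒢.map_int.eval₂ (wt := Sum.elim (wz p) (wz p))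
    (by rintro (i | i); exacts [hv i, ht i]) _ _ (Grd.isWH_iff.1 (isWH_of_scale ?_))
  rw [map_E1, map_E1]
  simp only [eval₂Hom_X', Sum.elim_inl, Sum.elim_inr]
  rw [E1, E1, ← hz]
  congr 2
  refine chain_ext ?_ fun i => ?_
  · change Laz.lift _ = LawRing.act _ (Laz.lift _)
    rw [Laz.act_eq, Laz.univ_map_lift, ← hz_scale]
    simp only [unit_wz]
  · change (fT p _ _)⁻¹ = _ * (fT p _ _)⁻¹ * _
    simp only [unit_wz, fT_scale]
    group

section P

variable [FpA p B] [FpA p B']

/-- evaluation of functions on the group of additive series -/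
def evP1 (t : ℕ → B) : CobP p 1 →+* B := eval₂Hom (zm p B) fun ki => t ki.2

/-- evaluation of functions of two additive series -/
def evP2 (t t' : ℕ → B) : CobP p 2 →+* B := eval₂Hom (zm p B) fun ki => ![t, t'] ki.1 ki.2

omit hp in
theorem map_evP1 (φ : B →+* B') (t : ℕ → B) (y : CobP p 1) :
    φ (evP1 p t y) = evP1 p (fun i => φ (t i)) y :=
  DFunLike.congr_fun (hom_ext_P (f := φ.comp (evP1 p t)) fun ki => by simp [evP1]) y

omit hp in
theorem evP1_X (y : CobP p 1) : evP1 p (fun i => X (0, i)) y = y :=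
  DFunLike.congr_fun (hom_ext_P (g := RingHom.id _) fun ki => by
    obtain ⟨k, i⟩ := ki
    obtain rfl : k = 0 := Subsingleton.elim _ _
    simp [evP1]) y

omit hp in
theorem evP2_X (y : CobP p 2) : evP2 p (fun i => X (0, i)) (fun i => X (1, i)) y = y :=
  DFunLike.congr_fun (hom_ext_P (g := RingHom.id _) fun ki => by
    obtain ⟨k, i⟩ := ki
    fin_cases k <;> simp [evP2]) y

theorem E1_zero (t : ℕ → B) (z : Cob Laz 1) :
    E1 p (fun _ => 0) t z = evP1 p t (fP p 1 z) := by
  let g : ℕ → addS B := fun k => if k = 0 then 1 else (mkA (p := p) t)⁻¹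
  have h1 : evP1 p t = evG 1 g := hom_ext_P fun ki => by
    obtain ⟨k, i⟩ := ki
    obtain rfl : k = 0 := Subsingleton.elim _ _
    simp [evP1, g, tc_addMk]
  rw [h1, evG_fP, E1]
  congr 2
  refine chain_ext ?_ fun i => ?_
  · rw [mkC_pt, act_lift_addLaw (g 0).2, ← hz_zero p]
    rfl
  · obtain rfl : i = 0 := Subsingleton.elim _ _
    change (fT p _ t)⁻¹ = _
    simp [g, fT_v0]

theorem E2_zero (t t' : ℕ → B) (z : Cob Laz 2) :
    E2 p (fun _ => 0) t t' z = evP2 p t t' (fP p 2 z) := by
  let g : ℕ → addS B := fun k => if k = 0 then 1 else if k = 1 then (mkA (p := p) t)⁻¹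
    else (mkA (p := p) t * mkA (p := p) t')⁻¹
  have h1 : evP2 p t t' = evG 2 g := hom_ext_P fun ki => by
    obtain ⟨k, i⟩ := ki
    fin_cases k <;> simp [evP2, g, tc_addMk]
  rw [h1, evG_fP, E2]
  congr 2
  refine chain_ext ?_ fun i => ?_
  · rw [mkC_pt, act_lift_addLaw (g 0).2, ← hz_zero p]
    rfl
  · fin_cases i
    · change (fT p _ t)⁻¹ = _
      simp [g, fT_v0]
    · change (fT p _ (del p _ t t'))⁻¹ = _
      rw [← del_spec, eta_v0 p FpA.cast]
      simp [g, fT_v0]

theorem evP2_dP (t t' : ℕ → B) (y : CobP p 1) : evP2 p t t' (dP 1 y) =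
    evP1 p t' y - evP1 p (del p (fun _ => 0) t t') y + evP1 p t y := by
  obtain ⟨z, rfl⟩ := P236H.fP_surj y
  rw [← fP_d, ← E2_zero, E2_d, eta_v0 p FpA.cast, E1_zero, E1_zero, E1_zero]

end P

omit hp in
theorem hat_single (n : ℕ) (s : B) (b : ℕ) :
    hat (Pi.single n s) b = if b = 0 then 1 else if b = n + 1 then s else 0 := by
  rcases b with _ | b
  · rfl
  · simp [Pi.single_apply]

theorem comp_single_right (g : ℕ → B) (n : ℕ) (s : B) (i : ℕ) :
    comp p g (hat (Pi.single n s)) i =
      g i + if n + 1 ≤ i then g (i - (n + 1)) * s ^ p ^ (i - (n + 1)) else 0 := by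
  rw [comp_range, Finset.sum_range_succ, Nat.sub_self, hat_zero, one_pow, mul_one, add_comm]
  congr 1
  split_ifs with h
  · rw [Finset.sum_eq_single_of_mem (i - (n + 1)) (Finset.mem_range.2 (by omega))
      fun a ha h1 => ?_, hat_single, if_neg (by omega), if_pos (by omega)]
    rw [Finset.mem_range] at ha
    rw [hat_single, if_neg (by omega), if_neg (by omega), zero_pow (pow_ne_zero _ hp.out.ne_zero),
      mul_zero]
  · refine Finset.sum_eq_zero fun a ha => ?_
    rw [Finset.mem_range] at ha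
    rw [hat_single, if_neg (by omega), if_neg (by omega), zero_pow (pow_ne_zero _ hp.out.ne_zero),
      mul_zero]

/-- `y` only depends on the first `n` variables -/
def Dep (y : CobP p 1) (n : ℕ) : Prop :=
  ∀ (B : Type) [CommRing B] [FpA p B] (t t' : ℕ → B), (∀ i < n, t i = t' i) →
    evP1 p t y = evP1 p t' y

variable {p} {y : CobP p 1}

theorem evP1_del [FpA p B] (hy : dP 1 y = 0) (t t' : ℕ → B) :
    evP1 p (del p (fun _ => 0) t t') y = evP1 p t y + evP1 p t' y := by
  have h := evP2_dP p t t' y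
  rw [hy, map_zero] at h
  linear_combination h

theorem evP1_zero [FpA p B] (hy : dP 1 y = 0) : evP1 p (fun _ => (0 : B)) y = 0 := by
  have h := evP1_del hy (fun _ => (0 : B)) fun _ => 0
  rw [del_zero_left] at h
  linear_combination -h

theorem evP1_single [FpA p B] (n : ℕ) (s : B) : evP1 p (Pi.single n s) y =
    Polynomial.eval₂RingHom (zm p B) s (evP1 p (Pi.single n Polynomial.X) y) := by
  rw [map_evP1]
  congr 2
  funext i
  simp only [Pi.single_apply]
  split_ifs <;> simp

theorem Dep.down (hy : dP 1 y = 0) {n : ℕ} (h : Dep p y (n + 2)) : Dep p y (n + 1) := by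
  have h1 : ∀ {B : Type} [CommRing B] [FpA p B] (t : ℕ → B), evP1 p t y =
      evP1 p (Function.update t (n + 1) 0) y + evP1 p (Pi.single (n + 1) (t (n + 1))) y := by
    intro B _ _ t
    rw [← evP1_del hy]
    refine h _ _ _ fun i hi => ?_
    rw [del_v0 p FpA.cast, comp_single_right, hat_succ]
    by_cases e : i = n + 1
    · simp [e]
    · rw [if_neg (by omega), add_zero, Function.update_of_ne e]
  let f : Polynomial (ZMod p) := evP1 p (Pi.single (n + 1) Polynomial.X) y
  have h2 : f = f.comp (Polynomial.X ^ p ^ (n + 1)) := by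
    let a : ℕ → Polynomial (ZMod p) := Pi.single 0 Polynomial.X
    let b : ℕ → Polynomial (ZMod p) := Pi.single n 1
    have h3 : evP1 p (del p (fun _ => 0) a b) y = evP1 p (del p (fun _ => 0) b a) y := by
      rw [evP1_del hy, evP1_del hy, add_comm]
    rw [h1 (del p _ a b), h1 (del p _ b a), h _ (Function.update (del p _ a b) (n + 1) 0)
      (Function.update (del p _ b a) (n + 1) 0) fun i hi => ?_, add_right_inj] at h3
    · rw [del_v0 p FpA.cast, del_v0 p FpA.cast, comp_single_right, comp_single_right,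
        if_pos (by omega), if_pos (by omega), show n + 1 + 1 - (n + 1) = 0 + 1 by omega,
        show n + 1 + 1 - (0 + 1) = n + 1 by omega] at h3
      simp only [hat_succ, a, b, Pi.single_eq_same, Pi.single_eq_of_ne (Nat.succ_ne_zero n),
        Pi.single_eq_of_ne (Nat.succ_ne_self n), one_pow, mul_one, one_mul, zero_add] at h3
      rw [evP1_single _ (Polynomial.X ^ _), Subsingleton.elim (zm p _) Polynomial.C] at h3
      exact h3
    · by_cases e : i = n + 1
      · rw [e, Function.update_self, Function.update_self]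
      · rw [Function.update_of_ne e, Function.update_of_ne e, del_v0 p FpA.cast,
          del_v0 p FpA.cast, comp_single_right, comp_single_right, hat_succ, hat_succ,
          if_pos (show 0 + 1 ≤ i + 1 by omega), show i + 1 - (0 + 1) = i by omega, hat_single n]
        by_cases e' : i = n
        · subst e'
          rcases i with _ | i <;> simp [a, b, add_comm]
        · rw [if_neg (by omega), if_neg e]
          rcases i with _ | i <;> simp [a, b, e']
  have h4 : f = 0 := by
    have h5 := congrArg Polynomial.natDegree h2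
    rw [Polynomial.natDegree_comp, Polynomial.natDegree_X_pow] at h5
    have h6 : 1 < p ^ (n + 1) := Nat.one_lt_pow (Nat.succ_ne_zero n) hp.out.one_lt
    have h7 := evP1_single (y := y) (n + 1) (0 : ZMod p)
    rw [Pi.single_zero, Polynomial.coe_eval₂RingHom, Polynomial.eval₂_at_zero,
      Subsingleton.elim (zm p _) (RingHom.id _), RingHom.id_apply] at h7
    rw [Polynomial.eq_C_of_natDegree_eq_zero (p := f) (by nlinarith), ← h7]
    exact (congrArg _ (evP1_zero hy)).trans (map_zero _)
  intro B _ _ t t' ht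
  rw [h1 t, h1 t', evP1_single, evP1_single _ (t' _)]
  change _ + Polynomial.eval₂RingHom _ _ f = _ + Polynomial.eval₂RingHom _ _ f
  rw [h4, map_zero, map_zero]
  congr 1
  refine h _ _ _ fun i hi => ?_
  by_cases e : i = n + 1
  · rw [e, Function.update_self, Function.update_self]
  · rw [Function.update_of_ne e, Function.update_of_ne e, ht i (by omega)]

theorem dep_one (hy : dP 1 y = 0) : Dep p y 1 := by
  classical
  have h : Dep p y (y.vars.sup Prod.snd + 1) := fun B _ _ t t' ht =>
    eval₂Hom_congr' rfl (fun ki h _ => ht _ (Nat.lt_succ_of_le (Finset.le_sup h))) rfl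
  generalize y.vars.sup Prod.snd = n at h
  induction n with
  | zero => exact h
  | succ n ih => exact ih (h.down hy)

/-- **Primitive elements.** -/
theorem prim (hy : dP 1 y = 0) {w : ℤ} (hw : IsWtP p 1 w y) : ∃ (c : ZMod p) (n : ℕ),
    y = C c * X (0, 0) ^ n ∧ (c ≠ 0 → w = ((p : ℤ) - 1) * n ∧ (p ∣ n ∨ n = 1)) := by
  classical
  let f : Polynomial (ZMod p) := evP1 p (Pi.single 0 Polynomial.X) y
  have h1 : y = f.sum fun n a => monomial (Finsupp.single (0, 0) n) a := by
    conv_lhs => rw [← evP1_X p y, dep_one hy _ _ (Pi.single 0 (X (0, 0))) fun i hi => by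
      obtain rfl : i = 0 := by omega
      rfl]
    rw [evP1_single, Polynomial.coe_eval₂RingHom, Polynomial.eval₂_eq_sum,
      Subsingleton.elim (zm p _) C]
    simp only [C_mul_X_pow_eq_monomial]
    rfl
  have h2 : ∀ n, coeff (Finsupp.single (0, 0) n) y = f.coeff n := fun n => by
    rw [h1, Polynomial.sum, coeff_sum]
    simp only [coeff_monomial, (Finsupp.single_injective _).eq_iff, Finset.sum_ite_eq',
      Polynomial.mem_support_iff, ite_not]
    split_ifs with h
    exacts [h.symm, rfl]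
  have h3 : ∀ n ∈ f.support, w = ((p : ℤ) - 1) * n := fun n hn => by
    rw [← hw (h2 n ▸ Polynomial.mem_support_iff.1 hn), Finsupp.weight_single, wX]
    simp [mul_comm]
  rcases f.support.eq_empty_or_nonempty with h | ⟨n, hn⟩
  · exact ⟨0, 0, by rw [h1, Polynomial.sum, h]; simp, fun h => absurd rfl h⟩
  have h4 : y = C (f.coeff n) * X (0, 0) ^ n := by
    rw [h1, Polynomial.sum, C_mul_X_pow_eq_monomial]
    refine Finset.sum_eq_single_of_mem n hn fun m hm hne => absurd ?_ hne
    have h5 := (h3 m hm).symm.trans (h3 n hn)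
    have h6 : (2 : ℤ) ≤ p := by exact_mod_cast hp.out.two_le
    exact_mod_cast mul_left_cancel₀ (by omega) h5
  refine ⟨_, n, h4, fun hc => ⟨h3 n hn, ?_⟩⟩
  have h5 := evP1_del hy (fun _ => (Polynomial.X : Polynomial (ZMod p))) fun _ => 1
  rw [h4] at h5
  simp only [evP1, map_mul, map_pow, eval₂Hom_C, eval₂Hom_X', del_one,
    Subsingleton.elim (zm p _) Polynomial.C] at h5
  have h6 := congrArg (Polynomial.coeff · 1) h5
  simp only [Polynomial.coeff_C_mul, Polynomial.coeff_add, Polynomial.coeff_X_add_one_pow,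
    Polynomial.coeff_X_pow, one_pow, Polynomial.coeff_one, Nat.choose_one_right] at h6
  by_cases e : n = 1
  · exact .inr e
  · rw [if_neg (Ne.symm e), if_neg one_ne_zero, mul_zero, add_zero, mul_eq_zero] at h6
    exact .inl ((ZMod.natCast_eq_zero_iff _ _).1 (h6.resolve_left hc))

end Vale.Agent.P236D
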