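import Vale.Agent.P236A.Wt

/-!
# P236, block DGM: chains with one typical vertex

`W k a = Cob (Av k) a` is the ring of functions of a Hazewinkel law `G` (over a `k`-algebra) and
strict isomorphisms `G → F_1, …, G → F_a`.

* `mapF`, `dW`, `hW` : the cosimplicial structure in the free vertices and its contraction;
* `jW`, `iW` : restriction of cobar cochains;
* `mv`, `RW` : moving the typical vertex.
-/

noncomputable section

namespace Vale.Agent.P236D

open Vale.Agent.P251.F Vale.Agent.P236A Vale.Agent.P236B MvPolynomial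

/-- functions of a typical law `G` and of `a` laws with isomorphisms from `G` -/
abbrev W (k : Type) [CommRing k] (a : ℕ) : Type := Cob (Av k) a

section Res

variable {N : Type} [CommRing N] {B B' : Type} [CommRing B] [CommRing B'] {l m n : ℕ}

/-- a chain from a point and the isomorphisms to the free vertices -/
def mkF (x : N →+* B) (g : Fin n → InvSeries B) (hg : ∀ i, g i ∈ strict B) : Chain N n B where
  pt := x
  g := Fin.cons 1 g
  strict i := Fin.cases (one_mem _) (fun i => hg i) i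
  zero := rfl

theorem chain_ext {c c' : Chain N n B} (h : c.pt = c'.pt) (hg : ∀ i : Fin n, c.g i.succ = c'.g i.succ) :
    c = c' := by
  ext1
  · exact h
  · funext i
    refine Fin.cases ?_ hg i
    rw [c.zero, c'.zero]

/-- restriction along a map from the free vertices to all vertices -/
def resF (β : Fin m → Fin (n + 1)) (c : Chain N n B) : Chain N m B :=
  mkF c.pt (fun i => c.g (β i)) fun _ => c.strict _

@[simp] theorem resF_pt (β : Fin m → Fin (n + 1)) (c : Chain N n B) : (resF β c).pt = c.pt := rfl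

theorem resF_g (β : Fin m → Fin (n + 1)) (c : Chain N n B) (i : Fin (m + 1)) :
    (resF β c).g i = c.g ((Fin.cons 0 β : Fin (m + 1) → Fin (n + 1)) i) := by
  refine Fin.cases ?_ (fun i => rfl) i
  exact c.zero.symm

theorem resF_resF (γ : Fin l → Fin (m + 1)) (β : Fin m → Fin (n + 1)) (c : Chain N n B) :
    resF γ (resF β c) = resF (fun j => (Fin.cons 0 β : Fin (m + 1) → Fin (n + 1)) (γ j)) c :=
  chain_ext rfl fun i => resF_g β c (γ i)

theorem resF_succ (c : Chain N n B) : resF Fin.succ c = c := chain_ext rfl fun _ => rfl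

theorem map_resF (φ : B →+* B') (β : Fin m → Fin (n + 1)) (c : Chain N n B) :
    (resF β c).map φ = resF β (c.map φ) := chain_ext rfl fun _ => rfl

/-- the ring homomorphism dual to `resF` -/
def mapF (β : Fin m → Fin (n + 1)) : Cob N m →+* Cob N n := Cob.ev (resF β (Cob.univ N n))

theorem ev_mapF (β : Fin m → Fin (n + 1)) (c : Chain N n B) (u : Cob N m) :
    Cob.ev c (mapF β u) = Cob.ev (resF β c) u := by
  rw [mapF, ← Cob.ev_map, map_resF, Cob.univ_map_ev]

theorem mapF_mapF (γ : Fin l → Fin (m + 1)) (β : Fin m → Fin (n + 1)) (u : Cob N l) :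
    mapF β (mapF γ u) =
      mapF (fun j => (Fin.cons 0 β : Fin (m + 1) → Fin (n + 1)) (γ j)) u := by
  apply Cob.ext_ev
  intro B _ c
  rw [ev_mapF, ev_mapF, ev_mapF, resF_resF]

theorem mapF_succ (u : Cob N n) : mapF Fin.succ u = u := by
  apply Cob.ext_ev
  intro B _ c
  rw [ev_mapF, resF_succ]

theorem mapF_C (β : Fin m → Fin (n + 1)) (a : N) : mapF β (C a : Cob N m) = C a := by
  rw [mapF, Cob.ev_C]
  rfl

/-- maps of free vertices -/
def mapV (γ : Fin m → Fin n) : Cob N m →+* Cob N n := mapF fun j => (γ j).succ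

theorem mapV_mapV (γ : Fin l → Fin m) (β : Fin m → Fin n) (u : Cob N l) :
    mapV β (mapV γ u) = mapV (β ∘ γ) u := mapF_mapF _ _ u

/-- the differential in the free vertices -/
def dW (n : ℕ) : Cob N n →+ Cob N (n + 1) :=
  ∑ i : Fin (n + 1), ((-1 : ℤ) ^ (i : ℕ)) •
    (mapV (i.succAbove) : Cob N n →+* Cob N (n + 1)).toAddMonoidHom

theorem dW_apply (u : Cob N n) :
    dW n u = ∑ i : Fin (n + 1), ((-1 : ℤ) ^ (i : ℕ)) • mapV i.succAbove u := by
  simp [dW, AddMonoidHom.finsetSum_apply]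

/-- the last free vertex is sent to the typical vertex -/
def rot (n : ℕ) : Fin (n + 1) → Fin (n + 1) := Fin.snoc (α := fun _ => Fin (n + 1)) Fin.succ 0

theorem rot_castSucc (i : Fin n) : rot n i.castSucc = i.succ := Fin.snoc_castSucc _ _ _

theorem rot_last : rot n (Fin.last n) = 0 := Fin.snoc_last _ _

/-- the contraction: the last free vertex is put equal to `G` -/
def hW (n : ℕ) : Cob N (n + 1) →+* Cob N n := mapF (rot n)

theorem hW_mapV (γ : Fin m → Fin (n + 1)) (u : Cob N m) :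
    hW n (mapV γ u) = mapF (fun j => rot n (γ j)) u := mapF_mapF _ _ u

theorem hW_dW_zero (u : Cob N 0) : hW 0 (dW 0 u) = u := by
  rw [dW_apply, Fin.sum_univ_one, Fin.val_zero, pow_zero, one_smul, hW_mapV]
  exact (congrArg (fun β => mapF β u) (Subsingleton.elim _ _)).trans (mapF_succ u)

theorem hW_dW (u : Cob N (n + 1)) :
    hW (n + 1) (dW (n + 1) u) = dW n (hW n u) + (-1 : ℤ) ^ (n + 1) • u := by
  rw [dW_apply, dW_apply, map_sum, Fin.sum_univ_castSucc, map_zsmul, hW_mapV, Fin.val_last]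
  simp only [Fin.succAbove_last, rot_castSucc, mapF_succ]
  congr 1
  refine Finset.sum_congr rfl fun i _ => ?_
  rw [map_zsmul, hW_mapV, Fin.val_castSucc, hW, mapV, mapF_mapF]
  congr 3
  funext j
  refine Fin.lastCases ?_ (fun j => ?_) j
  · rw [Fin.succAbove_ne_last_last (Fin.castSucc_lt_last i).ne, rot_last, rot_last, Fin.cons_zero]
  · rw [Fin.castSucc_succAbove_castSucc, rot_castSucc, rot_castSucc, Fin.cons_succ]

theorem parity' (i : Fin (n + 2)) (j : Fin (n + 1)) :
    ((i.succAbove j : Fin (n + 2)) : ℕ) + ((j.predAbove i : Fin (n + 1)) : ℕ) + 1 = i + j ∨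
    ((i.succAbove j : Fin (n + 2)) : ℕ) + ((j.predAbove i : Fin (n + 1)) : ℕ) = i + j + 1 := by
  simp only [Fin.succAbove, Fin.predAbove, Fin.lt_def, Fin.val_castSucc, apply_dite Fin.val,
    Fin.val_pred, Fin.coe_castPred, dite_eq_ite, apply_ite Fin.val, Fin.val_succ]
  split_ifs <;> omega

theorem dW_dW (x : Cob N n) : dW (n + 1) (dW n x) = 0 := by
  rw [dW_apply]
  simp only [dW_apply, map_sum, map_zsmul, mapV_mapV, Finset.smul_sum, smul_smul]
  rw [← Finset.sum_product' (f := fun (i : Fin (n + 2)) (j : Fin (n + 1)) =>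
    ((-1 : ℤ) ^ (i : ℕ) * (-1) ^ (j : ℕ)) • mapV (i.succAbove ∘ j.succAbove) x)]
  refine Finset.sum_involution (fun ij _ => (ij.1.succAbove ij.2, ij.2.predAbove ij.1))
    ?_ ?_ (fun _ _ => Finset.mem_univ _) ?_
  · rintro ⟨i, j⟩ -
    have e : (i.succAbove j).succAbove ∘ (j.predAbove i).succAbove =
        i.succAbove ∘ j.succAbove := by
      funext k
      exact Fin.succAbove_succAbove_succAbove_predAbove i j k
    dsimp only
    rw [e, ← add_smul, ← pow_add, ← pow_add]
    have : ((-1 : ℤ) ^ ((i : ℕ) + j) + (-1) ^ (((i.succAbove j : Fin (n + 2)) : ℕ) +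
        ((j.predAbove i : Fin (n + 1)) : ℕ))) = 0 := by
      rcases parity' i j with h | h
      · rw [← h, pow_succ]
        ring
      · rw [h, pow_succ]
        ring
    rw [this, zero_smul]
  · rintro ⟨i, j⟩ - - h
    have := congrArg Prod.fst h
    exact Fin.succAbove_ne i j this
  · rintro ⟨i, j⟩ -
    refine Prod.ext ?_ ?_
    · exact Fin.succAbove_succAbove_predAbove i j
    · dsimp only
      apply Fin.ext
      simp only [Fin.succAbove, Fin.predAbove, Fin.lt_def, Fin.val_castSucc, apply_dite Fin.val,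
        Fin.val_pred, Fin.coe_castPred, dite_eq_ite, apply_ite Fin.val, Fin.val_succ]
      split_ifs <;> omega

end Res

section Typ

variable (p : ℕ) [hp : Fact p.Prime] {k : Type} [CommRing k] {B B' : Type} [CommRing B]
  [CommRing B'] {l m n : ℕ}

/-- the values of the `v_i` -/
def vc (c : Chain (Av k) n B) : ℕ → B := fun i => c.pt (X i)

/-- the underlying chain of laws -/
def toLaz (c : Chain (Av k) n B) : Chain Laz n B where
  pt := Laz.lift (hz p (vc c))
  g := c.g
  strict := c.strict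
  zero := c.zero

theorem map_toLaz (φ : B →+* B') (c : Chain (Av k) n B) :
    (toLaz p c).map φ = toLaz p (c.map φ) := by
  refine chain_ext ?_ fun _ => rfl
  change φ.comp (Laz.lift _) = Laz.lift _
  rw [Laz.comp_lift, map_hz]
  rfl

theorem toLaz_resF (β : Fin m → Fin (n + 1)) (c : Chain (Av k) n B) :
    toLaz p (resF β c) = (toLaz p c).res (Fin.cons 0 β) := by
  refine chain_ext ?_ fun i => ?_
  · rw [Chain.res_pt, Fin.cons_zero, (toLaz p c).zero, LawRing.act_one]
    rfl
  · rw [Chain.res_g, Fin.cons_zero, (toLaz p c).zero, inv_one, mul_one]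
    rfl

variable (k) in
/-- restriction of cochains: the first vertex is `G` -/
def jW (n : ℕ) : Cob Laz n →+* W k n := Cob.ev (toLaz p (Cob.univ (Av k) n))

theorem ev_jW (c : Chain (Av k) n B) (z : Cob Laz n) :
    Cob.ev c (jW p k n z) = Cob.ev (toLaz p c) z := by
  rw [jW, ← Cob.ev_map, map_toLaz, Cob.univ_map_ev]

theorem mapF_jW (β : Fin m → Fin (n + 1)) (z : Cob Laz m) :
    mapF β (jW p k m z) = jW p k n (Cob.map (Fin.cons 0 β) z) := by
  apply Cob.ext_ev
  intro B _ c
  rw [ev_mapF, ev_jW, ev_jW, Cob.ev_map_res, toLaz_resF]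

variable (k) in
/-- cochains as functions of the free vertices -/
def iW (n : ℕ) : Cob Laz n →+* W k (n + 1) := (jW p k (n + 1)).comp (Cob.map Fin.succ)

theorem iW_apply (z : Cob Laz n) : iW p k n z = jW p k (n + 1) (Cob.map Fin.succ z) := rfl

theorem ev_iW (c : Chain (Av k) (n + 1) B) (z : Cob Laz n) :
    Cob.ev c (iW p k n z) = Cob.ev ((toLaz p c).res Fin.succ) z := by
  rw [iW_apply, ev_jW, Cob.ev_map_res]

theorem mapF_iW (β : Fin (m + 1) → Fin (n + 1)) (z : Cob Laz m) :
    mapF β (iW p k m z) = jW p k n (Cob.map β z) := by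
  rw [iW_apply, mapF_jW, Cob.map_map]
  rfl

theorem mapV_iW (γ : Fin (m + 1) → Fin (n + 1)) (z : Cob Laz m) :
    mapV γ (iW p k m z) = iW p k n (Cob.map γ z) := by
  rw [mapV, mapF_iW, iW_apply, Cob.map_map]
  rfl

theorem hW_iW (z : Cob Laz n) : hW n (iW p k n z) = jW p k n (Cob.map (rot n) z) :=
  mapF_iW p _ z

theorem hW_iW_C_zero (a : Laz) :
    hW 0 (iW p k 0 (C a)) = C (Laz.lift (hz p (X : ℕ → Av k)) a) := by
  rw [hW_iW, show rot 0 = id from funext fun _ => Subsingleton.elim (α := Fin 1) _ _, Cob.map_id, jW, Cob.ev_C]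
  change Laz.lift (hz p _) a = ((C : Av k →+* W k 0).comp (Laz.lift _)) a
  rw [Laz.comp_lift, map_hz]
  rfl

theorem hW_iW_C (a : Laz) : hW (n + 1) (iW p k (n + 1) (C a)) = iW p k n (C a) := by
  rw [hW_iW]
  apply Cob.ext_ev
  intro B _ c
  rw [ev_jW, ev_iW, Cob.ev_map_res, Cob.ev_C, Cob.ev_C, Chain.res_pt, Chain.res_pt,
    ← Fin.castSucc_zero, rot_castSucc]

theorem dW_iW (z : Cob Laz n) : dW (n + 1) (iW p k n z) = iW p k (n + 1) (Cob.d n z) := by
  rw [dW_apply, Cob.d_apply, map_sum]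
  refine Finset.sum_congr rfl fun i _ => ?_
  rw [map_zsmul, mapV_iW]

/-- moving the typical vertex along the isomorphism with coordinates `t` -/
def mv (c : Chain (Av k) n B) (t : ℕ → B) : Chain (Av k) n B :=
  mkF (tgt p c.pt t) (fun i => c.g i.succ * fT p (vc c) t)
    fun _ => mul_mem (c.strict _) (fT_mem p _ _)

theorem mv_pt (c : Chain (Av k) n B) (t : ℕ → B) : (mv p c t).pt = tgt p c.pt t := rfl

theorem mv_g (c : Chain (Av k) n B) (t : ℕ → B) (i : Fin n) :
    (mv p c t).g i.succ = c.g i.succ * fT p (vc c) t := rfl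

theorem vc_mv (c : Chain (Av k) n B) (t : ℕ → B) : vc (mv p c t) = eta p (vc c) t :=
  funext fun i => tgt_X p _ _ i

theorem map_mv (φ : B →+* B') (c : Chain (Av k) n B) (t : ℕ → B) :
    (mv p c t).map φ = mv p (c.map φ) fun i => φ (t i) := by
  refine chain_ext (comp_tgt p φ _ _) fun i => ?_
  rw [Chain.map_g, mv_g, mv_g, map_mul, map_fT]
  rfl

theorem mv_resV (γ : Fin m → Fin n) (c : Chain (Av k) n B) (t : ℕ → B) :
    mv p (resF (fun j => (γ j).succ) c) t = resF (fun j => (γ j).succ) (mv p c t) :=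
  chain_ext rfl fun _ => rfl

theorem res_toLaz_mv (c : Chain (Av k) (n + 1) B) (t : ℕ → B) :
    (toLaz p (mv p c t)).res Fin.succ = (toLaz p c).res Fin.succ := by
  refine chain_ext ?_ fun i => ?_
  · change LawRing.act (c.g (Fin.succ 0) * fT p (vc c) t) (Laz.lift (hz p (vc (mv p c t)))) =
      LawRing.act (c.g (Fin.succ 0)) (Laz.lift (hz p (vc c)))
    rw [Laz.act_eq, Laz.act_eq, Laz.univ_map_lift, Laz.univ_map_lift, vc_mv, mul_smul, fT_smul]
  · change c.g i.succ.succ * fT p (vc c) t * (c.g (Fin.succ 0) * fT p (vc c) t)⁻¹ =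
      c.g i.succ.succ * (c.g (Fin.succ 0))⁻¹
    group

theorem mv_mv (c : Chain (Av k) n B) (t t' : ℕ → B) :
    mv p (mv p c t) t' = mv p c (del p (vc c) t t') := by
  refine chain_ext (tgt_tgt p _ _ _) fun i => ?_
  rw [mv_g, mv_g, mv_g, vc_mv, mul_assoc, del_spec]

theorem mv_injective (c : Chain (Av k) (n + 1) B) : Function.Injective (mv p c) := by
  intro t t' h
  have h1 := congrArg (fun c => c.g (Fin.succ 0)) h
  exact fT_injective p _ (mul_left_cancel h1)

omit hp in
theorem chain_map_map {N B'' : Type} [CommRing N] [CommRing B''] (φ : B →+* B') (ψ : B' →+* B'')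
    (c : Chain N n B) : (c.map φ).map ψ = c.map (ψ.comp φ) :=
  chain_ext rfl fun _ => InvSeries.map_map _ _ _

/-- evaluation at the generic move of a chain -/
def Th (c : Chain (Av k) n B) : W k n →+* MvPolynomial ℕ B := Cob.ev (mv p (c.map C) X)

theorem comp_Th (φ : MvPolynomial ℕ B →+* B') (c : Chain (Av k) n B) (u : W k n) :
    φ (Th p c u) = Cob.ev (mv p (c.map (φ.comp C)) fun i => φ (X i)) u := by
  rw [Th, ← Cob.ev_map, map_mv, chain_map_map]

theorem map_Th (φ : B →+* B') (c : Chain (Av k) n B) (u : W k n) :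
    map φ (Th p c u) = Th p (c.map φ) u := by
  rw [comp_Th, Th, chain_map_map]
  simp only [map_X, map_comp_C]

theorem Th_C (c : Chain (Av k) n B) (b : Av k) : Th p c (C b) = etaB p c.pt b := Cob.ev_C _ _

theorem Th_iW (c : Chain (Av k) (n + 1) B) (z : Cob Laz n) :
    Th p c (iW p k n z) = C (Cob.ev ((toLaz p c).res Fin.succ) z) := by
  rw [Th, ev_iW, res_toLaz_mv, ← map_toLaz, ← Chain.map_res, Cob.ev_map]

theorem RB_Th (c : Chain (Av k) n B) (u : W k n) :
    RB p c.pt (Th p c u) = Th p (mv p (c.map C) X) u := by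
  rw [comp_Th, Th, map_mv, mv_mv, chain_map_map]
  congr 3
  · congr 1
    exact RingHom.ext fun b => RB_C p _ b
  · funext i
    exact RB_X p _ i

/-- the action of an operation in the typical vertex -/
def actW (ξ : (ℕ →₀ ℕ) → Av k) (n : ℕ) : W k n →+ W k n :=
  (lin fun J => (C (ξ J) : W k n)).toAddMonoidHom.comp (Th p (Cob.univ (Av k) n)).toAddMonoidHom

theorem ev_actW (c : Chain (Av k) n B) (ξ : (ℕ →₀ ℕ) → Av k) (u : W k n) :
    Cob.ev c (actW p ξ n u) = lin (fun J => c.pt (ξ J)) (Th p c u) := by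
  change Cob.ev c (lin _ (Th p _ u)) = _
  rw [map_lin, map_Th, Cob.univ_map_ev]
  simp only [Cob.ev_C]

theorem Th_actW (c : Chain (Av k) n B) (ξ : (ℕ →₀ ℕ) → Av k) (u : W k n) :
    Th p c (actW p ξ n u) = actB p c.pt ξ (Th p c u) := by
  rw [actB, RB_Th]
  exact ev_actW p _ ξ u

theorem mapV_actW (γ : Fin m → Fin n) (ξ : (ℕ →₀ ℕ) → Av k) (u : W k m) :
    mapV γ (actW p ξ m u) = actW p ξ n (mapV γ u) := by
  apply Cob.ext_ev
  intro B _ c
  rw [mapV, ev_mapF, ev_actW, ev_actW, Th, Th, ev_mapF, map_resF, mv_resV]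
  rfl

theorem actW_dW (ξ : (ℕ →₀ ℕ) → Av k) (u : W k n) :
    actW p ξ (n + 1) (dW n u) = dW n (actW p ξ n u) := by
  simp only [dW_apply, map_sum, map_zsmul, mapV_actW]

theorem actW_iW_mul (ξ : (ℕ →₀ ℕ) → Av k) (z : Cob Laz n) (u : W k (n + 1)) :
    actW p ξ (n + 1) (iW p k n z * u) = iW p k n z * actW p ξ (n + 1) u := by
  apply Cob.ext_ev
  intro B _ c
  rw [ev_actW, (Th p c).map_mul, (Cob.ev c).map_mul, Th_iW, lin_C_mul, ev_actW, ev_iW]

theorem actW_C (ξ : (ℕ →₀ ℕ) → Av k) (b : Av k) : actW p ξ n (C b) = C (act0 p ξ b) := by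
  apply Cob.ext_ev
  intro B _ c
  rw [ev_actW, Th_C, Cob.ev_C, act0, map_lin, map_etaR]

/-! ### weights -/

/-- rescaling -/
def scW (c : Chain (Av k) n B) (u : Bˣ) : Chain (Av k) n B :=
  mkF (setV c.pt fun i => ((u ^ wz p i : Bˣ) : B) * vc c i)
    (fun i => (InvSeries.lin u)⁻¹ * c.g i.succ * InvSeries.lin u) fun i => by
      have h := strict_normal.conj_mem (c.g i.succ) (c.strict _) (InvSeries.lin u)⁻¹
      rwa [inv_inv] at h

omit hp in
theorem scW_pt (c : Chain (Av k) n B) (u : Bˣ) :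
    (scW p c u).pt = setV c.pt fun i => ((u ^ wz p i : Bˣ) : B) * vc c i := rfl

omit hp in
theorem scW_g (c : Chain (Av k) n B) (u : Bˣ) (i : Fin (n + 1)) :
    (scW p c u).g i = (InvSeries.lin u)⁻¹ * c.g i * InvSeries.lin u := by
  refine Fin.cases ?_ (fun _ => rfl) i
  rw [c.zero, (scW p c u).zero, mul_one, inv_mul_cancel]

omit hp in
theorem vc_scW (c : Chain (Av k) n B) (u : Bˣ) :
    vc (scW p c u) = fun i => ((u ^ wz p i : Bˣ) : B) * vc c i := funext fun i => setV_X _ _ i

omit hp in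
theorem resF_scW (β : Fin m → Fin (n + 1)) (c : Chain (Av k) n B) (u : Bˣ) :
    resF β (scW p c u) = scW p (resF β c) u := chain_ext rfl fun i => scW_g p c u (β i)

omit hp in
theorem map_scW (φ : B →+* B') (c : Chain (Av k) n B) (u : Bˣ) :
    (scW p c u).map φ = scW p (c.map φ) (Units.map (φ : B →* B') u) := by
  refine chain_ext ?_ fun i => ?_
  · rw [Chain.map_pt, scW_pt, scW_pt, comp_setV]
    congr 1
    funext i
    rw [map_mul, ← map_zpow]
    rfl
  · rw [Chain.map_g, scW_g, scW_g, map_mul, map_mul, map_inv, InvSeries.map_lin]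
    rfl

theorem toLaz_scW (c : Chain (Av k) n B) (u : Bˣ) : toLaz p (scW p c u) = (toLaz p c).scale u := by
  refine chain_ext ?_ fun i => rfl
  change Laz.lift (hz p (vc (scW p c u))) = LawRing.act _ (Laz.lift (hz p (vc c)))
  rw [Laz.act_eq, Laz.univ_map_lift, ← hz_scale, vc_scW]
  simp only [unit_wz]

theorem scW_mv (c : Chain (Av k) n B) (t : ℕ → B) (u : Bˣ) :
    scW p (mv p c t) u = mv p (scW p c u) fun i => ((u ^ wz p i : Bˣ) : B) * t i := by
  refine chain_ext (av_ext (fun a => ?_) fun i => ?_) fun i => ?_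
  · rw [scW_pt, mv_pt, mv_pt, setV_C, tgt_C, tgt_C, scW_pt, setV_C]
  · rw [scW_pt, mv_pt, mv_pt, setV_X, tgt_X, vc_mv, ← eta_scale', scW_pt]
    simp only [setV_X]
  · rw [scW_g, mv_g, mv_g, scW_g, vc_scW]
    simp only [unit_wz, fT_scale]
    group

variable (k) in
/-- the grading of `W k n` -/
def gW (n : ℕ) : Grd (W k n) where
  G w := { carrier := {x | ∀ (B : Type) [CommRing B] (c : Chain (Av k) n B) (u : Bˣ),
              Cob.ev (scW p c u) x = ((u ^ w : Bˣ) : B) * Cob.ev c x}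
           add_mem' := fun ha hb B _ c u => by rw [map_add, map_add, ha, hb, mul_add]
           zero_mem' := fun B _ c u => by rw [map_zero, map_zero, mul_zero]
           neg_mem' := fun ha B _ c u => by rw [map_neg, map_neg, ha, mul_neg] }
  one_mem B _ c u := by rw [map_one, map_one, zpow_zero, Units.val_one, mul_one]
  mul_mem ha hb B _ c u := by
    rw [map_mul, map_mul, ha, hb, zpow_add, Units.val_mul]
    ring

omit hp in
theorem wt_mapF (β : Fin m → Fin (n + 1)) : (gW p k m).Map (gW p k n) (mapF β) :=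
  fun w x hx B _ c u => by rw [ev_mapF, ev_mapF, resF_scW, hx]

omit hp in
theorem dW_mem {w : ℤ} {x : W k n} (hx : x ∈ (gW p k n).G w) : dW n x ∈ (gW p k (n + 1)).G w := by
  rw [dW_apply]
  exact sum_mem fun i _ => AddSubgroup.zsmul_mem _ (wt_mapF p _ _ _ hx) _

theorem iW_mem {w : ℤ} {z : Cob Laz n} (hz : Cob.IsWt w z) :
    iW p k n z ∈ (gW p k (n + 1)).G w := fun B _ c u => by
  rw [ev_iW, ev_iW, toLaz_scW, Cob.res_scale, hz]

omit hp in
theorem wt_C : (gA p k).Map (gW p k n) C := fun w x hx B _ c u => by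
  rw [Cob.ev_C, Cob.ev_C, scW_pt, setV, eval₂Hom_scale ((mem_gA p).1 hx)]
  congr 1
  exact DFunLike.congr_fun (av_ext (x := setV c.pt (vc c)) (y := c.pt) (fun a => setV_C _ _ a)
    fun i => setV_X _ _ i) x

omit hp in
theorem isWH_of_C {w : ℤ} {b : Av k} (h : (C b : W k 0) ∈ (gW p k 0).G w) :
    IsWeightedHomogeneous (wz p) b w := by
  have h1 := h _ (mkF (n := 0) LaurentPolynomial.C Fin.elim0 fun i => i.elim0) (unitT (Av k))
  rw [Cob.ev_C, Cob.ev_C, scW_pt, setV] at h1
  apply isWH_of_scale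
  exact h1

section coact

open LaurentPolynomial

omit hp in
theorem map_eq_eval₂Hom_C_comp' (σ : B →+* B') (q : MvPolynomial ℕ B) :
    map σ q = eval₂ ((MvPolynomial.C : B' →+* MvPolynomial ℕ B').comp σ) X q := by
  rw [← coe_eval₂Hom, ← map_eq_eval₂Hom_C_comp]

omit hp in
theorem coeff_scale (σ : B →+* B') (u : B'ˣ) (q : MvPolynomial ℕ B) (J : ℕ →₀ ℕ) :
    MvPolynomial.coeff J (eval₂Hom ((MvPolynomial.C : B' →+* MvPolynomial ℕ B').comp σ)
      (fun i => ((Units.map ((MvPolynomial.C : B' →+* MvPolynomial ℕ B') : B' →* _) u ^ wz p i :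
        (MvPolynomial ℕ B')ˣ) : MvPolynomial ℕ B') * X i) q) =
      ((u ^ mz p J : B'ˣ) : B') * σ (MvPolynomial.coeff J q) := by
  classical
  induction q using MvPolynomial.induction_on' with
  | add a b ha hb => rw [map_add, coeff_add, coeff_add, ha, hb, map_add, mul_add]
  | monomial L a =>
    rw [eval₂Hom_scale_monomial, ← map_zpow, Units.coe_map, MonoidHom.coe_coe, coeff_C_mul,
      coe_eval₂Hom, ← map_eq_eval₂Hom_C_comp', coeff_map, coeff_monomial]
    split_ifs with h
    · rw [h, mz]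
    · rw [map_zero, mul_zero, mul_zero]

/-- the coefficients of the generic move of a homogeneous function -/
theorem coact_coeff_Th {c : Chain (Av k) n B} {σ : B →+* B[T;T⁻¹]}
    (hσ : c.map σ = scW p (c.map LaurentPolynomial.C) (unitT B)) {w : ℤ} {x : W k n}
    (hx : x ∈ (gW p k n).G w) (J : ℕ →₀ ℕ) : σ (MvPolynomial.coeff J (Th p c x)) =
      T (w - mz p J) * LaurentPolynomial.C (MvPolynomial.coeff J (Th p c x)) := by
  have h1 := coeff_scale p σ (unitT B) (Th p c x) J
  rw [comp_Th] at h1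
  simp only [eval₂Hom_comp_C, eval₂Hom_X'] at h1
  rw [← chain_map_map, hσ, map_scW, ← scW_mv, hx, ← map_zpow] at h1
  change MvPolynomial.coeff J (MvPolynomial.C _ * Th p _ x) = _ at h1
  rw [coeff_C_mul, ← map_Th, coeff_map, unitT_zpow, unitT_zpow] at h1
  have h2 := congrArg (T (-mz p J) * ·) h1
  simp only [← mul_assoc, ← T_add, neg_add_cancel, T_zero, one_mul] at h2
  rw [← h2, neg_add_eq_sub]

theorem wt_Th_univ : (gW p k n).Map ((gW p k n).poly (wz p)) (Th p (Cob.univ (Av k) n)) := by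
  intro w x hx J B _ c u
  have h1 := coact_coeff_Th p (Cob.univ_map_ev _) hx J
  have h2 := congrArg (LaurentPolynomial.eval₂ (Cob.ev c) u) h1
  rw [map_mul, eval₂_T, LaurentPolynomial.eval₂_C, ← Cob.ev_map, map_scW, chain_map_map] at h2
  have e : (LaurentPolynomial.eval₂ (Cob.ev c) u).comp LaurentPolynomial.C = Cob.ev c :=
    RingHom.ext fun a => by rw [RingHom.comp_apply, LaurentPolynomial.eval₂_C]
  have e' : Units.map (LaurentPolynomial.eval₂ (Cob.ev c) u : (W k n)[T;T⁻¹] →* B)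
      (unitT (W k n)) = u := by
    apply Units.ext
    change LaurentPolynomial.eval₂ (Cob.ev c) u (T 1) = u.val
    rw [LaurentPolynomial.eval₂_T, zpow_one]
  rwa [e, e', Cob.univ_map_ev] at h2

end coact

theorem actW_mem {w e : ℤ} {ξ : (ℕ →₀ ℕ) → Av k} (hξ : ∀ J, ξ J ∈ (gA p k).G (mz p J + e))
    {x : W k n} (hx : x ∈ (gW p k n).G w) : actW p ξ n x ∈ (gW p k n).G (w + e) :=
  lin_mem_G p (wt_Th_univ p _ _ hx) fun J => wt_C p _ _ (hξ J)

end Typ

end Vale.Agent.P236D
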